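import Vale.Agent.P329Z.Base
import Mathlib.Algebra.BigOperators.Ring.Finset
import Mathlib.Algebra.Order.Group.Int.Sum
import Mathlib.Algebra.Order.Ring.Abs
import Mathlib.Tactic.Positivity
import Mathlib.Tactic.LinearCombination

set_option linter.all false

/-!
The splitting of numbers by digits.
-/

namespace Vale.Agent.P329Z

namespace Ar

variable {b m m' j : ℕ} {a : ℕ → ℕ}

/-- the number with the digits `a j`, `j < m` -/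
def val (b : ℕ) (a : ℕ → ℕ) (m : ℕ) : ℕ := ∑ j ∈ Finset.range m, a j * b ^ j

theorem val_succ : val b a (m + 1) = val b a m + a m * b ^ m := Finset.sum_range_succ _ _

theorem val_lt (h : ∀ j, a j < b) : val b a m < b ^ m := by
  induction m with
  | zero => simp [val]
  | succ m ih =>
    have := Nat.mul_le_mul_right (b ^ m) (Nat.succ_le_of_lt (h m))
    rw [val_succ, pow_succ]
    nlinarith

theorem mul_val_lt {c : ℕ} (hc : c < b) (h : ∀ j, a j ≤ 1) : c * val b a m < b ^ m := by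
  have : c * val b a m = val b (fun j => c * a j) m := by
    simp only [val, Finset.mul_sum, mul_assoc]
  rw [this]
  exact val_lt fun j => lt_of_le_of_lt (by simpa using Nat.mul_le_mul_left c (h j)) hc

/-- the digit of `x` at the place `j` is `c` -/
def Dg (b j : ℕ) (x c : ℤ) : Prop :=
  ∃ hi lo : ℤ, x = hi * b ^ (j + 1) + c * b ^ j + lo ∧ 0 ≤ lo ∧ lo < b ^ j

theorem val_dg (h : ∀ j, a j < b) (hj : j < m) : Dg b j (val b a m) (a j) := by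
  induction m with
  | zero => omega
  | succ m ih =>
    rw [val_succ]
    rcases Nat.lt_succ_iff_lt_or_eq.1 hj with h1 | rfl
    · obtain ⟨hi, lo, e, h2⟩ := ih h1
      obtain ⟨k, rfl⟩ := Nat.exists_eq_add_of_lt h1
      exact ⟨hi + a (j + k + 1) * b ^ k, lo, by push_cast; rw [e]; ring, h2⟩
    · exact ⟨0, val b a j, by push_cast; ring, by positivity, by exact_mod_cast val_lt h⟩

/-- digits -/
def dig (b η j : ℕ) : ℕ := η / b ^ j % b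

theorem val_dig (η : ℕ) : val b (dig b η) m = η % b ^ m := by
  induction m with
  | zero => simp [val, Nat.mod_one]
  | succ m ih => rw [val_succ, ih, Nat.mod_pow_succ, dig, mul_comm]

theorem dig_congr {η η' : ℕ} (h : η % b ^ m = η' % b ^ m) (hj : j < m) :
    dig b η j = dig b η' j := by
  have e : ∀ η, dig b η j = η % b ^ m % b ^ (j + 1) / b ^ j := fun η => by
    rw [Nat.mod_mod_of_dvd _ (pow_dvd_pow b hj), dig, pow_succ, Nat.mod_mul_right_div_self]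
  rw [e, e, h]

/-- the part of a digit which goes to the first summand -/
def part (r : Fin 3) (d : ℕ) : ℕ := if r = 0 then 0 else if r = 1 then d else d / 2

theorem part_le (r : Fin 3) (d : ℕ) : part r d ≤ d := by
  unfold part; split_ifs <;> omega

variable {T : Type} {σ σ' : ℕ → T → ℕ → Fin 3}

/-- every rule occurs between `m` and `m'` -/
def Layer (b : ℕ) (σ : ℕ → T → ℕ → Fin 3) (m m' : ℕ) : Prop :=
  ∀ r : T → ℕ → Fin 3, ∃ j, m ≤ j ∧ j < m' ∧ ∀ ρ η, σ j ρ η = r ρ (η % b ^ m)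

theorem Layer.congr (h : Layer b σ m m') {k : ℕ} (hk : m' ≤ k) (e : ∀ j < k, σ' j = σ j) :
    Layer b σ' m m' := fun r => by
  obtain ⟨j, h1, h2, h3⟩ := h r
  exact ⟨j, h1, h2, by rw [e j (by omega)]; exact h3⟩

theorem Layer.lt (h : Layer b σ m m') : m < m' := by
  obtain ⟨j, h1, h2, -⟩ := h fun _ _ => 0
  omega

theorem ext [Finite T] (hb : 0 < b) (m : ℕ) (σ : ℕ → T → ℕ → Fin 3) :
    ∃ m' σ', (∀ j < m, σ' j = σ j) ∧ Layer b σ' m m' := by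
  obtain ⟨N, ⟨f⟩⟩ := Finite.exists_equiv_fin (T → Fin (b ^ m) → Fin 3)
  refine ⟨m + N, fun j => if h : m ≤ j ∧ j - m < N then
    fun ρ η => f.symm ⟨j - m, h.2⟩ ρ ⟨η % b ^ m, Nat.mod_lt _ (by positivity)⟩ else σ j,
    fun j hj => dif_neg (by omega), fun r => ?_⟩
  have := (f fun ρ x => r ρ x).2
  refine ⟨m + f fun ρ x => r ρ x, by omega, by omega, fun ρ η => ?_⟩
  beta_reduce
  rw [dif_pos ⟨by omega, by omega⟩]
  simp

/-- the first summand -/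
def XX (b : ℕ) (σ : ℕ → T → ℕ → Fin 3) (m : ℕ) (ρ : T) (η : ℕ) : ℕ :=
  val b (fun j => part (σ j ρ η) (dig b η j)) m

theorem XX_add (ρ : T) {η : ℕ} (h : η < b ^ m) :
    XX b σ m ρ η + val b (fun j => dig b η j - part (σ j ρ η) (dig b η j)) m = η := by
  conv_rhs => rw [← Nat.mod_eq_of_lt h, ← val_dig]
  simp only [XX, val, ← Finset.sum_add_distrib, ← add_mul]
  exact Finset.sum_congr rfl fun j _ => by rw [Nat.add_sub_cancel' (part_le _ _)]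

theorem dg_X (hb : 0 < b) (ρ : T) (η : ℕ) (hj : j < m) :
    Dg b j (XX b σ m ρ η) (part (σ j ρ η) (dig b η j)) :=
  val_dg (a := fun j => part (σ j ρ η) (dig b η j))
    (fun j => (part_le _ _).trans_lt (Nat.mod_lt _ hb)) hj

theorem dg_Z (hb : 0 < b) (ρ : T) {η : ℕ} (h : η < b ^ m) (hj : j < m) :
    Dg b j ((η : ℤ) - XX b σ m ρ η) (dig b η j - part (σ j ρ η) (dig b η j) : ℕ) := by
  have := val_dg (b := b) (a := fun j => dig b η j - part (σ j ρ η) (dig b η j))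
    (fun j => (Nat.sub_le _ _).trans_lt (Nat.mod_lt _ hb)) hj
  have e := XX_add (σ := σ) ρ h
  rwa [show (η : ℤ) - XX b σ m ρ η =
    val b (fun j => dig b η j - part (σ j ρ η) (dig b η j)) m by omega]

theorem pair {x y c d e f : ℤ} (hx : Dg b j x c) (hy : Dg b j y d) (he : e = 1 ∨ e = -1)
    (hf : f = 1 ∨ f = -1) (h : (c = 0 ∧ d = 0) ∨ (e = f ∧ (c = d ∨ c + 1 = d))) :
    ∃ hi r : ℤ, e * x - f * y = hi * b ^ (j + 1) + r ∧ |r| ≤ 3 * b ^ j := by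
  obtain ⟨h1, l1, rfl, a1, a2⟩ := hx
  obtain ⟨h2, l2, rfl, a3, a4⟩ := hy
  refine ⟨e * h1 - f * h2, e * (c * b ^ j + l1) - f * (d * b ^ j + l2), by ring, ?_⟩
  rw [abs_le]
  rcases h with ⟨rfl, rfl⟩ | ⟨rfl, rfl | rfl⟩ <;> rcases he with rfl | rfl <;>
    rcases hf with h | h <;> (try subst h) <;> constructor <;> linarith

theorem big {s lo B r : ℤ} {c : ℤ} (h0 : 0 ≤ lo) (h1 : lo < B) (hs : 16 ≤ |s|) (hc : |s| ≤ c)
    (hr : |r| ≤ 11 * B) : s * (B + lo) + r ≠ 0 ∧ |s * (B + lo) + r| < (2 * c + 12) * B := by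
  have h2 : |s * (B + lo)| = |s| * (B + lo) := by rw [abs_mul, abs_of_nonneg (by linarith : 0 ≤ B + lo)]
  constructor
  · intro h
    have : |s * (B + lo)| = |r| := by rw [eq_neg_of_add_eq_zero_left h, abs_neg]
    nlinarith
  · have := abs_add_le (s * (B + lo)) r
    nlinarith

theorem not_dvd {x hi y : ℤ} (hj : j < m) (e : x = hi * b ^ (j + 1) + y) (h0 : y ≠ 0)
    (h1 : |y| < b ^ (j + 1)) : ¬ ((b ^ m : ℕ) : ℤ) ∣ x := fun h => by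
  have h2 : (b : ℤ) ^ (j + 1) ∣ x := (pow_dvd_pow _ hj).trans (by simpa using h)
  rw [e] at h2
  exact h0 (Int.eq_zero_of_abs_lt_dvd ((dvd_add_right (dvd_mul_left _ _)).1 h2) h1)

theorem four_layer (hL : Layer b σ m m') {ρ₁ ρ₂ ρ₃ ρ₄ : T} {η₁ η₂ η₃ η₄ : ℕ} (h12 : ρ₁ ≠ ρ₂)
    (h34 : ρ₃ ≠ ρ₄)
    (hA : (ρ₁ = ρ₄ ∧ η₁ % b ^ m = η₄ % b ^ m) → ρ₁ = ρ₄ ∧ η₁ % b ^ m' = η₄ % b ^ m')
    (hB : (ρ₃ = ρ₂ ∧ η₃ % b ^ m = η₂ % b ^ m) → ρ₃ = ρ₂ ∧ η₃ % b ^ m' = η₂ % b ^ m') :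
    ∃ j < m', ((σ j ρ₄ η₄ = 0 ∧ σ j ρ₁ η₁ = 1) ∨
        (ρ₁ = ρ₄ ∧ dig b η₁ j = dig b η₄ j ∧ σ j ρ₄ η₄ = 2 ∧ σ j ρ₁ η₁ = 2)) ∧
      ((σ j ρ₂ η₂ = 0 ∧ σ j ρ₃ η₃ = 1) ∨
        (ρ₃ = ρ₂ ∧ dig b η₃ j = dig b η₂ j ∧ σ j ρ₂ η₂ = 2 ∧ σ j ρ₃ η₃ = 2)) := by
  classical
  obtain ⟨j, -, h2, h3⟩ := hL fun ρ x =>
    if ((ρ₁ = ρ₄ ∧ η₁ % b ^ m = η₄ % b ^ m) ∧ ρ = ρ₁ ∧ x = η₁ % b ^ m) ∨
      ((ρ₃ = ρ₂ ∧ η₃ % b ^ m = η₂ % b ^ m) ∧ ρ = ρ₃ ∧ x = η₃ % b ^ m) then 2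
    else if (ρ = ρ₁ ∧ x = η₁ % b ^ m) ∨ (ρ = ρ₃ ∧ x = η₃ % b ^ m) then 1 else 0
  refine ⟨j, h2, ?_, ?_⟩
  · by_cases h : ρ₁ = ρ₄ ∧ η₁ % b ^ m = η₄ % b ^ m
    · exact Or.inr ⟨h.1, dig_congr (hA h).2 h2, by rw [h3, if_pos (Or.inl ⟨h, h.1.symm, h.2.symm⟩)],
        by rw [h3, if_pos (Or.inl ⟨h, rfl, rfl⟩)]⟩
    · refine Or.inl ⟨?_, ?_⟩
      · rw [h3, if_neg, if_neg]
        · rintro (h4 | h4)
          exacts [h ⟨h4.1.symm, h4.2.symm⟩, h34 h4.1.symm]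
        · rintro (h4 | h4)
          exacts [h h4.1, h34 h4.2.1.symm]
      · rw [h3, if_neg, if_pos (Or.inl ⟨rfl, rfl⟩)]
        rintro (h4 | h4)
        exacts [h h4.1, h12 (h4.2.1.trans h4.1.1)]
  · by_cases h : ρ₃ = ρ₂ ∧ η₃ % b ^ m = η₂ % b ^ m
    · exact Or.inr ⟨h.1, dig_congr (hB h).2 h2, by rw [h3, if_pos (Or.inr ⟨h, h.1.symm, h.2.symm⟩)],
        by rw [h3, if_pos (Or.inr ⟨h, rfl, rfl⟩)]⟩
    · refine Or.inl ⟨?_, ?_⟩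
      · rw [h3, if_neg, if_neg]
        · rintro (h4 | h4)
          exacts [h12 h4.1.symm, h ⟨h4.1.symm, h4.2.symm⟩]
        · rintro (h4 | h4)
          exacts [h12 h4.2.1.symm, h h4.1]
      · rw [h3, if_neg, if_pos (Or.inr ⟨rfl, rfl⟩)]
        rintro (h4 | h4)
        exacts [h34 (h4.2.1.trans h4.1.1), h h4.1]

theorem pair' (hb : 0 < b) {ε : T → ℤ} (hε : ∀ ρ, ε ρ = 1 ∨ ε ρ = -1) {ρ₁ ρ₄ : T} {η₁ η₄ : ℕ}
    (hj : j < m) (h1 : η₁ < b ^ m) (h : (σ j ρ₄ η₄ = 0 ∧ σ j ρ₁ η₁ = 1) ∨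
      (ρ₁ = ρ₄ ∧ dig b η₁ j = dig b η₄ j ∧ σ j ρ₄ η₄ = 2 ∧ σ j ρ₁ η₁ = 2)) :
    ∃ hi r : ℤ, ε ρ₄ * XX b σ m ρ₄ η₄ - ε ρ₁ * ((η₁ : ℤ) - XX b σ m ρ₁ η₁) =
      hi * b ^ (j + 1) + r ∧ |r| ≤ 3 * b ^ j := by
  refine pair (dg_X hb ρ₄ η₄ hj) (dg_Z hb ρ₁ h1 hj) (hε _) (hε _) ?_
  rcases h with ⟨h2, h3⟩ | ⟨rfl, h2, h3, h4⟩
  · exact Or.inl (by simp [h2, h3, part])
  · refine Or.inr ⟨rfl, ?_⟩
    rw [h2, h3, h4, show part 2 (dig b η₄ j) = dig b η₄ j / 2 from rfl]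
    omega

end Ar

open Ar in
theorem exists_split (T : Type) [Finite T] (S : ℕ) (ε : T → ℤ) (hε : ∀ ρ, ε ρ = 1 ∨ ε ρ = -1) :
    ∃ (q U : ℕ) (z : T → ℕ) (X : T → ℕ → ℕ), Split S ε q U z X := by
  classical
  obtain ⟨N, ⟨idx⟩⟩ := Finite.exists_equiv_fin T
  obtain ⟨b, hb⟩ : ∃ b : ℕ, b = 2 * S + 32 * N + 40 := ⟨_, rfl⟩
  have hb0 : 0 < b := by omega
  obtain ⟨m₁, σ₁, -, L1⟩ := ext (T := T) hb0 0 fun _ _ _ => 0
  obtain ⟨m₂, σ₂, e2, L2⟩ := ext hb0 m₁ σ₁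
  obtain ⟨m₃, σ₃, e3, L3⟩ := ext hb0 m₂ σ₂
  obtain ⟨m₄, σ, e4, L4⟩ := ext hb0 m₃ σ₃
  have l1 := L1.lt
  have l2 := L2.lt
  have l3 := L3.lt
  have l4 := L4.lt
  replace L1 := ((L1.congr le_rfl e2).congr l2.le e3).congr (by omega) e4
  replace L2 := (L2.congr le_rfl e3).congr l3.le e4
  replace L3 := L3.congr le_rfl e4
  set U := val b (fun _ => 1) m₃ with hU
  set V := val b (fun j => if m₃ ≤ j then 1 else 0) m₄ with hV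
  have hSU : S * U < b ^ m₃ := mul_val_lt (by omega) fun _ => le_rfl
  have hdV : b ^ m₃ ∣ V := Finset.dvd_sum fun j _ => by
    beta_reduce
    split_ifs with h
    · exact (pow_dvd_pow b h).mul_left _
    · simp
  have hp : ∀ j, (1 : ℤ) ≤ (b : ℤ) ^ j := fun j => one_le_pow₀ (by omega)
  refine ⟨b ^ m₄, U, fun ρ => b ^ m₄ + 16 * idx ρ * V, XX b σ m₄, ?_,
    hSU.trans_le (Nat.pow_le_pow_right hb0 l4.le), fun _ => Nat.le_add_right _ _, fun ρ => ?_,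
    fun ρ η h => by have := XX_add (σ := σ) ρ h; omega, ?_, ?_⟩
  · exact Finset.sum_pos (fun j _ => by positivity) ⟨0, Finset.mem_range.2 (by omega)⟩
  · have h1 := (idx ρ).2
    have : 16 * idx ρ * V < b ^ m₄ := mul_val_lt (by omega) fun j => by split_ifs <;> omega
    omega
  · intro ρ₁ ρ₂ ρ₃ ρ₄ η₁ η₂ η₃ η₄ h12 h34 h1 h2 h3 h4 s e hs hS he
    have mono : ∀ {m m' : ℕ} {ρ ρ' : T} {η η' : ℕ}, m < m' → (ρ = ρ' ∧ η % b ^ m' = η' % b ^ m') →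
        ρ = ρ' ∧ η % b ^ m = η' % b ^ m := fun h h' =>
      ⟨h'.1, Nat.ModEq.of_dvd (pow_dvd_pow b h.le) h'.2⟩
    obtain ⟨j, hj, p1, p2⟩ : ∃ j < m₃, ((σ j ρ₄ η₄ = 0 ∧ σ j ρ₁ η₁ = 1) ∨
        (ρ₁ = ρ₄ ∧ dig b η₁ j = dig b η₄ j ∧ σ j ρ₄ η₄ = 2 ∧ σ j ρ₁ η₁ = 2)) ∧
      ((σ j ρ₂ η₂ = 0 ∧ σ j ρ₃ η₃ = 1) ∨
        (ρ₃ = ρ₂ ∧ dig b η₃ j = dig b η₂ j ∧ σ j ρ₂ η₂ = 2 ∧ σ j ρ₃ η₃ = 2)) := by
      by_contra hc
      have n1 := fun hA hB => hc ((four_layer L1 (η₁ := η₁) (η₂ := η₂) (η₃ := η₃) (η₄ := η₄)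
        h12 h34 hA hB).imp fun j h => ⟨by omega, h.2⟩)
      have n2 := fun hA hB => hc ((four_layer L2 (η₁ := η₁) (η₂ := η₂) (η₃ := η₃) (η₄ := η₄)
        h12 h34 hA hB).imp fun j h => ⟨by omega, h.2⟩)
      have n3 := fun hA hB => hc (four_layer L3 (η₁ := η₁) (η₂ := η₂) (η₃ := η₃) (η₄ := η₄)
        h12 h34 hA hB)
      have a2 := mono (ρ := ρ₁) (ρ' := ρ₄) (η := η₁) (η' := η₄) l2
      have b2 := mono (ρ := ρ₃) (ρ' := ρ₂) (η := η₃) (η' := η₂) l2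
      have a3 := mono (ρ := ρ₁) (ρ' := ρ₄) (η := η₁) (η' := η₄) l3
      have b3 := mono (ρ := ρ₃) (ρ' := ρ₂) (η := η₃) (η' := η₂) l3
      generalize (ρ₁ = ρ₄ ∧ η₁ % b ^ 0 = η₄ % b ^ 0) = A0 at *
      generalize (ρ₁ = ρ₄ ∧ η₁ % b ^ m₁ = η₄ % b ^ m₁) = A1 at *
      generalize (ρ₁ = ρ₄ ∧ η₁ % b ^ m₂ = η₄ % b ^ m₂) = A2 at *
      generalize (ρ₁ = ρ₄ ∧ η₁ % b ^ m₃ = η₄ % b ^ m₃) = A3 at *
      generalize (ρ₃ = ρ₂ ∧ η₃ % b ^ 0 = η₂ % b ^ 0) = B0 at *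
      generalize (ρ₃ = ρ₂ ∧ η₃ % b ^ m₁ = η₂ % b ^ m₁) = B1 at *
      generalize (ρ₃ = ρ₂ ∧ η₃ % b ^ m₂ = η₂ % b ^ m₂) = B2 at *
      generalize (ρ₃ = ρ₂ ∧ η₃ % b ^ m₃ = η₂ % b ^ m₃) = B3 at *
      clear * - n1 n2 n3 a2 b2 a3 b3
      tauto
    obtain ⟨k1, r1, f1, g1⟩ := pair' hb0 hε (hj.trans l4) h1 p1
    obtain ⟨k2, r2, f2, g2⟩ := pair' hb0 hε (hj.trans l4) h3 p2
    obtain ⟨k3, lo, f3, g3, g4⟩ := val_dg (b := b) (a := fun _ => 1) (fun _ => by omega) hj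
    obtain ⟨k4, f4⟩ : (b : ℤ) ^ (j + 1) ∣ V :=
      (pow_dvd_pow _ hj).trans (by exact_mod_cast Int.natCast_dvd_natCast.2 hdV)
    have := big (r := r2 - r1 - e) g3 g4 hs hS (by
      have := hp j
      rw [abs_le] at *
      constructor <;> linarith [g1.1, g1.2, g2.1, g2.2, he.1, he.2])
    refine not_dvd (hi := s * k3 - k1 + k2 -
      16 * ((idx ρ₁ : ℤ) - idx ρ₂ - idx ρ₃ + idx ρ₄) * k4) (hj.trans l4) ?_ this.1
      (this.2.trans_le ?_)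
    · simp only [cross]
      push_cast at f3 ⊢
      rw [f4]
      linear_combination s * f3 - f1 + f2
    · rw [pow_succ']
      exact mul_le_mul_of_nonneg_right (by omega) (by positivity)
  · intro ρ₁ ρ₂ η₁ η₂ h12 h1 h2 d e hd he
    obtain ⟨j, j1, j2, hj⟩ := L4 fun ρ _ => if ρ = ρ₁ then 1 else 0
    obtain ⟨k1, r1, f1, g1⟩ := pair' (σ := σ) (ρ₄ := ρ₂) (η₄ := η₂) hb0
      (ε := fun ρ => if ρ = ρ₁ then -ε ρ else ε ρ) (fun ρ => by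
        split_ifs <;> rcases hε ρ with h | h <;> simp [h]) j2 h1
      (Or.inl ⟨by rw [hj, if_neg h12.symm], by rw [hj, if_pos rfl]⟩)
    rw [if_pos rfl, if_neg h12.symm] at f1
    obtain ⟨k3, lo, f3, g3, g4⟩ := val_dg (b := b) (a := fun j => if m₃ ≤ j then 1 else 0)
      (fun _ => by split_ifs <;> omega) j2
    rw [if_pos j1] at f3
    have i1 := (idx ρ₁).2
    have i2 := (idx ρ₂).2
    have i3 : (idx ρ₁ : ℕ) ≠ idx ρ₂ := fun h => h12 (idx.injective (Fin.ext h))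
    have hd' : |d| ≤ (b : ℤ) ^ j :=
      hd.trans (by exact_mod_cast hSU.le.trans (Nat.pow_le_pow_right hb0 j1))
    have := big (s := 16 * ((idx ρ₂ : ℤ) - idx ρ₁)) (c := 16 * N) (r := d + r1 - e) g3 g4
      (by rw [le_abs]; omega) (by rw [abs_le]; omega) (by
      have := hp j
      rw [abs_le] at *
      constructor <;> linarith [g1.1, g1.2, hd'.1, hd'.2, he.1, he.2])
    refine not_dvd (hi := 16 * ((idx ρ₂ : ℤ) - idx ρ₁) * k3 + k1) j2 ?_ this.1 (this.2.trans_le ?_)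
    · simp only [cross]
      push_cast at f3 ⊢
      linear_combination 16 * ((idx ρ₂ : ℤ) - idx ρ₁) * f3 + f1
    · rw [pow_succ']
      exact mul_le_mul_of_nonneg_right (by omega) (by positivity)

end Vale.Agent.P329Z
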