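import Vale.Agent.P329.Defs
import Mathlib.Data.Set.Finite.Lattice
import Mathlib.Data.Set.Finite.List
import Mathlib.Data.Fintype.EquivFin
import Mathlib.Data.ZMod.Basic
import Mathlib.Tactic.Ring
import Mathlib.Tactic.Linarith

set_option linter.all false

/-!
Shared definitions for the bound three on the generalized star height.
-/

namespace Vale.Agent.P329Z

open Vale.Agent.P329

/-- `SH k L`: the language `L` is denoted by an expression of star height at most `k`. -/
def SH (k : ℕ) {α : Type} (L : Set (List α)) : Prop :=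
  ∃ e : GRE α, e.height ≤ k ∧ e.lang = L

/-- concatenation -/
def cat {α : Type} (A B : Set (List α)) : Set (List α) :=
  {w | ∃ u ∈ A, ∃ v ∈ B, u ++ v = w}

/-- Kleene star -/
def kst {α : Type} (A : Set (List α)) : Set (List α) :=
  {w | ∃ L : List (List α), (∀ u ∈ L, u ∈ A) ∧ L.flatten = w}

section closure

variable {α : Type} {k : ℕ} {A B : Set (List α)}

namespace SH

theorem mono {k l : ℕ} (h : k ≤ l) (hA : SH k A) : SH l A := by
  obtain ⟨e, he, rfl⟩ := hA
  exact ⟨e, he.trans h, rfl⟩

theorem of_zero (hA : SH 0 A) : SH k A := hA.mono (Nat.zero_le _)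

theorem empty : SH k (∅ : Set (List α)) := ⟨.zero, Nat.zero_le _, rfl⟩

theorem eps : SH k ({[]} : Set (List α)) := ⟨.one, Nat.zero_le _, rfl⟩

theorem single (a : α) : SH k ({[a]} : Set (List α)) := ⟨.letter a, Nat.zero_le _, rfl⟩

theorem compl (hA : SH k A) : SH k Aᶜ := by
  obtain ⟨e, he, rfl⟩ := hA
  exact ⟨.compl e, he, rfl⟩

theorem univ : SH k (Set.univ : Set (List α)) := by
  have := (empty (α := α) (k := k)).compl
  simpa using this

theorem union (hA : SH k A) (hB : SH k B) : SH k (A ∪ B) := by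
  obtain ⟨e, he, rfl⟩ := hA
  obtain ⟨f, hf, rfl⟩ := hB
  exact ⟨.union e f, max_le he hf, rfl⟩

theorem inter (hA : SH k A) (hB : SH k B) : SH k (A ∩ B) := by
  have := (hA.compl.union hB.compl).compl
  rwa [Set.compl_union, compl_compl, compl_compl] at this

theorem diff (hA : SH k A) (hB : SH k B) : SH k (A \ B) := by
  rw [Set.sdiff_eq]; exact hA.inter hB.compl

theorem cat (hA : SH k A) (hB : SH k B) : SH k (cat A B) := by
  obtain ⟨e, he, rfl⟩ := hA
  obtain ⟨f, hf, rfl⟩ := hB
  exact ⟨.concat e f, max_le he hf, rfl⟩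

theorem kst (hA : SH k A) : SH (k + 1) (kst A) := by
  obtain ⟨e, he, rfl⟩ := hA
  exact ⟨.star e, Nat.succ_le_succ he, rfl⟩

theorem biUnion {ι : Type*} (s : Finset ι) {L : ι → Set (List α)} (h : ∀ i ∈ s, SH k (L i)) :
    SH k (⋃ i ∈ s, L i) := by
  classical
  induction s using Finset.induction_on with
  | empty => simpa using empty
  | insert a s _ ih =>
    have : (⋃ i ∈ insert a s, L i) = L a ∪ ⋃ i ∈ s, L i := by
      ext w; simp
    rw [this]
    exact (h a (Finset.mem_insert_self _ _)).union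
      (ih fun i hi => h i (Finset.mem_insert_of_mem hi))

theorem iUnion {ι : Type*} [Finite ι] {L : ι → Set (List α)} (h : ∀ i, SH k (L i)) :
    SH k (⋃ i, L i) := by
  classical
  have := Fintype.ofFinite ι
  have := biUnion (k := k) Finset.univ (L := L) fun i _ => h i
  simpa using this

theorem biUnion_finite {ι : Type*} {s : Set ι} (hs : s.Finite) {L : ι → Set (List α)}
    (h : ∀ i ∈ s, SH k (L i)) : SH k (⋃ i ∈ s, L i) := by
  have := biUnion (k := k) hs.toFinset (L := L) fun i hi => h i (hs.mem_toFinset.1 hi)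
  simpa using this

theorem iUnion_prop {p : Prop} {L : Set (List α)} (h : p → SH k L) :
    SH k (⋃ _ : p, L) := by
  by_cases hp : p
  · simpa [hp] using h hp
  · simpa [hp] using empty

theorem word (w : List α) : SH k ({w} : Set (List α)) := by
  induction w with
  | nil => exact SH.eps
  | cons a w ih =>
    have h := (SH.single (k := k) a).cat ih
    have e : ({a :: w} : Set (List α)) = P329Z.cat {[a]} {w} := by
      ext v
      constructor
      · rintro rfl
        exact ⟨[a], rfl, w, rfl, rfl⟩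
      · rintro ⟨_, rfl, _, rfl, rfl⟩
        rfl
    rw [e]
    exact h

theorem finite (hA : A.Finite) : SH k A := by
  have h := SH.biUnion_finite (k := k) hA (L := fun w => ({w} : Set (List α)))
    (fun w _ => SH.word w)
  simpa using h

theorem congr (hA : SH k A) (h : ∀ w, w ∈ B ↔ w ∈ A) : SH k B := by
  rw [show B = A from Set.ext h]; exact hA

end SH

end closure

section machines

variable {α S X : Type}

/-- the state of a machine after a word -/
def run (step : S → α → S) (s : S) (u : List α) : S := u.foldl step s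

@[simp] theorem run_nil (step : S → α → S) (s : S) : run step s [] = s := rfl

@[simp] theorem run_cons (step : S → α → S) (s : S) (a : α) (u : List α) :
    run step s (a :: u) = run step (step s a) u := rfl

theorem run_append (step : S → α → S) (s : S) (u v : List α) :
    run step s (u ++ v) = run step (run step s u) v := List.foldl_append

/-- no event happens while the machine reads the word -/
def NoEv (step : S → α → S) (ev : S → α → Prop) : S → List α → Prop
  | _, [] => True
  | s, a :: u => ¬ ev s a ∧ NoEv step ev (step s a) u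

theorem noEv_append (step : S → α → S) (ev : S → α → Prop) (s : S) (u v : List α) :
    NoEv step ev s (u ++ v) ↔ NoEv step ev s u ∧ NoEv step ev (run step s u) v := by
  induction u generalizing s with
  | nil => simp [NoEv]
  | cons a u ih => simp [NoEv, ih, and_assoc]

/-- `Φ` is a finite summary of the states which is compatible with steps and events -/
structure Summ (step : S → α → S) (ev : S → α → Prop) (Φ : S → X) : Prop where
  fin : (Set.range Φ).Finite
  stp : ∀ s s' a, Φ s = Φ s' → Φ (step s a) = Φ (step s' a)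
  evt : ∀ s s' a, Φ s = Φ s' → ev s a → ev s' a

/-- inside `Z` every finite automaton is evaluated with star height one -/
def Good1 (Z : Set (List α)) : Prop :=
  ∀ (S : Type) [Finite S] (step : S → α → S) (s t : S), SH 1 {u | u ∈ Z ∧ run step s u = t}

/-- a power of a short word between two short words -/
def Z0 (B L : ℕ) : Set (List α) :=
  {u | ∃ (a z b : List α) (j : ℕ), a.length ≤ B ∧ z.length ≤ L ∧ b.length ≤ B ∧
    u = a ++ (List.replicate j z).flatten ++ b}

/-- products of at most `n` words of `Z0` -/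
def Zn (B L n : ℕ) : Set (List α) :=
  {u | ∃ l : List (List α), l.length ≤ n ∧ (∀ v ∈ l, v ∈ Z0 B L) ∧ l.flatten = u}

/-- factorizations for the inner star, the last factor leads to the state `t` -/
inductive IChain (step : S → α → S) (ev : S → α → Prop) (F : Set S) (Z : Set (List α)) (t : S) :
    List α → Prop
  | last (v : List α) : v ∈ Z → (∀ s ∈ F, NoEv step ev s v → run step s v = t) →
      IChain step ev F Z t v
  | cons (k w : List α) : k ∈ Z → (∀ s ∈ F, NoEv step ev s k → run step s k ∈ F) →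
      IChain step ev F Z t w → IChain step ev F Z t (k ++ w)

/-- factorizations for the outer star -/
inductive OChain (step : S → α → S) (ev : S → α → Prop) (F I : Set S) (Z : Set (List α)) :
    List α → Prop
  | last (b n : List α) (t : S) : b ∈ Z → t ∈ I → (∀ s ∈ F, run step s b = t) →
      NoEv step ev t n → OChain step ev F I Z (b ++ n)
  | cons (b n w : List α) (t : S) : b ∈ Z → t ∈ I → (∀ s ∈ F, run step s b = t) →
      NoEv step ev t n → run step t n ∈ F → OChain step ev F I Z w →
      OChain step ev F I Z (b ++ n ++ w)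

end machines

section marks

/-- there is a mark after the first `i` letters of `u`: the last `N` of them form a word of `U` -/
def Mk {α : Type} (N : ℕ) (U : Set (List α)) (u : List α) (i : ℕ) : Prop :=
  N ≤ i ∧ i ≤ u.length ∧ (u.take i).drop (i - N) ∈ U

open Classical in
/-- the distance from `y` back to the last mark before `y`, at most `Lc` -/
noncomputable def back (Lc : ℕ) (P : ℕ → Prop) (y : ℕ) : ℕ :=
  Nat.find (⟨Lc, Or.inl rfl⟩ : ∃ j, j = Lc ∨ (1 ≤ j ∧ P (y - j)))

/-- `n` is the first mark at or after `y` -/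
def IsNxt (P : ℕ → Prop) (y n : ℕ) : Prop := y ≤ n ∧ P n ∧ ∀ i, y ≤ i → i < n → ¬ P i

/-- the slipping clock, `a` is the distance from the last mark, `β` the distance to the next -/
def psi (q W a : ℕ) (β : ZMod q) : ZMod q :=
  (a : ZMod q) - ((min ((a : ZMod q) + β).val (a / W - 1) : ℕ) : ZMod q)

/-- the slipping clock at `y`, if the next mark is at `n` -/
noncomputable def Psi (q W : ℕ) (P : ℕ → Prop) (y n : ℕ) : ZMod q :=
  psi q W (back (W * (q + 2)) P y) ((n - y : ℕ) : ZMod q)

/-- marks are far apart -/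
def Sparse (D : ℕ) (P : ℕ → Prop) : Prop := ∀ i j, P i → P j → i < j → i + D < j

end marks

section cross

/-- the phase seen if a sender of type `ρ₂` meets a receiver of type `ρ₁` -/
def cross {T : Type} (ε : T → ℤ) (z : T → ℕ) (X : T → ℕ → ℕ) (ρ₁ : T) (η₁ : ℕ) (ρ₂ : T)
    (η₂ : ℕ) : ℤ :=
  (z ρ₁ : ℤ) - z ρ₂ - ε ρ₂ * X ρ₂ η₂ - ε ρ₁ * ((η₁ : ℤ) - X ρ₁ η₁)

/-- the properties of the splitting of the numbers below `q` -/
structure Split {T : Type} (S : ℕ) (ε : T → ℤ) (q U : ℕ) (z : T → ℕ) (X : T → ℕ → ℕ) :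
    Prop where
  upos : 0 < U
  ult : S * U < q
  zge : ∀ ρ, q ≤ z ρ
  zlt : ∀ ρ, z ρ < 2 * q
  xle : ∀ ρ η, η < q → X ρ η ≤ η
  four : ∀ ρ₁ ρ₂ ρ₃ ρ₄ η₁ η₂ η₃ η₄, ρ₁ ≠ ρ₂ → ρ₃ ≠ ρ₄ → η₁ < q → η₂ < q → η₃ < q → η₄ < q →
    ∀ s e : ℤ, 16 ≤ |s| → |s| ≤ S → |e| ≤ 5 →
      ¬ (q : ℤ) ∣ s * U - (cross ε z X ρ₁ η₁ ρ₂ η₂ - cross ε z X ρ₃ η₃ ρ₄ η₄ + e)
  two : ∀ ρ₁ ρ₂ η₁ η₂, ρ₁ ≠ ρ₂ → η₁ < q → η₂ < q →
    ∀ d e : ℤ, |d| ≤ S * U → |e| ≤ 2 → ¬ (q : ℤ) ∣ d - (cross ε z X ρ₁ η₁ ρ₂ η₂ + e)

end cross

end Vale.Agent.P329Z
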