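import Vale.Agent.P329Z.Base
import Mathlib.Data.Fintype.Pigeonhole

set_option linter.all false

/-!
The abstract lemmas on star height.
-/

namespace Vale.Agent.P329Z

variable {α S X : Type}

namespace Ht

theorem good_congr {A B : Set (List α)} (h : Good1 A) (e : ∀ w, w ∈ B ↔ w ∈ A) : Good1 B := by
  rw [show B = A from Set.ext e]; exact h

theorem good_finite {A : Set (List α)} (h : A.Finite) : Good1 A :=
  fun _ _ _ _ _ => SH.finite (h.subset fun _ hu => hu.1)

theorem good_union {A B : Set (List α)} (hA : Good1 A) (hB : Good1 B) : Good1 (A ∪ B) :=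
  fun S _ step s t => ((hA S step s t).union (hB S step s t)).congr fun w => by
    simp only [Set.mem_union, Set.mem_setOf_eq]; tauto

theorem good_biUnion {ι : Type} {I : Set ι} (hI : I.Finite) {A : ι → Set (List α)}
    (h : ∀ i ∈ I, Good1 (A i)) : Good1 (⋃ i ∈ I, A i) :=
  fun S _ step s t => (SH.biUnion_finite hI fun i hi => h i hi S step s t).congr fun w => by
    simp only [Set.mem_iUnion, Set.mem_setOf_eq]; tauto

theorem good_cat {A B : Set (List α)} (hA : Good1 A) (hB : Good1 B) : Good1 (cat A B) :=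
  fun S _ step s t => (SH.iUnion fun m : S => (hA S step s m).cat (hB S step m t)).congr fun w => by
    simp only [Set.mem_iUnion, Set.mem_setOf_eq, cat]
    constructor
    · rintro ⟨⟨u, hu, v, hv, rfl⟩, h⟩
      exact ⟨_, u, ⟨hu, rfl⟩, v, ⟨hv, by rwa [run_append] at h⟩, rfl⟩
    · rintro ⟨m, u, ⟨hu, rfl⟩, v, ⟨hv, h⟩, rfl⟩
      exact ⟨⟨u, hu, v, hv, rfl⟩, by rwa [run_append]⟩

/-- powers of a word -/
def pw (z : List α) (j : ℕ) : List α := (List.replicate j z).flatten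

theorem pw_succ (z : List α) (j : ℕ) : pw z (j + 1) = z ++ pw z j := by
  simp [pw, List.replicate_succ]

theorem pw_add (z : List α) (i j : ℕ) : pw z (i + j) = pw z i ++ pw z j := by
  simp only [pw, List.replicate_add, List.flatten_append]

theorem pw_mul (z : List α) (e k : ℕ) : pw (pw z e) k = pw z (e * k) := by
  induction k with
  | zero => rfl
  | succ k ih => rw [pw_succ, ih, Nat.mul_succ, add_comm, pw_add]

theorem mem_kst (y u : List α) : u ∈ kst {y} ↔ ∃ k, u = pw y k := by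
  constructor
  · rintro ⟨L, hL, rfl⟩
    exact ⟨L.length, by rw [pw, ← List.eq_replicate_of_mem hL]⟩
  · rintro ⟨k, rfl⟩
    exact ⟨_, fun u hu => List.eq_of_mem_replicate hu, rfl⟩

theorem good_pw (z : List α) : Good1 {u | ∃ j, u = pw z j} := by
  intro S _ step s t
  obtain ⟨a, e, he, h⟩ : ∃ a e, 0 < e ∧ run step s (pw z (a + e)) = run step s (pw z a) := by
    obtain ⟨i, j, hij, h⟩ := Finite.exists_ne_map_eq_of_infinite fun j => run step s (pw z j)
    rcases lt_or_gt_of_ne hij with h1 | h1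
    · exact ⟨i, j - i, by omega, by rw [show i + (j - i) = j by omega]; exact h.symm⟩
    · exact ⟨j, i - j, by omega, by rw [show j + (i - j) = i by omega]; exact h⟩
  have per : ∀ k r, run step s (pw z (a + r + e * k)) = run step s (pw z (a + r)) := by
    intro k r
    induction k with
    | zero => rfl
    | succ k ih =>
      rw [show a + r + e * (k + 1) = (a + e) + (r + e * k) by ring, pw_add, run_append, h,
        ← run_append, ← pw_add, ← add_assoc, ih]
  have f1 : ((fun j => pw z j) '' {j | j < a ∧ run step s (pw z j) = t}).Finite :=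
    ((Set.finite_lt_nat a).subset fun _ h => h.1).image _
  have f2 : {r | r < e ∧ run step s (pw z (a + r)) = t}.Finite :=
    (Set.finite_lt_nat e).subset fun _ h => h.1
  refine ((SH.finite f1).union (SH.biUnion_finite f2 fun r _ =>
    (SH.word (pw z (a + r))).cat (SH.word (k := 0) (pw z e)).kst)).congr fun w => ?_
  simp only [Set.mem_union, Set.mem_iUnion, Set.mem_setOf_eq, Set.mem_image, cat, mem_kst,
    Set.mem_singleton_iff]
  constructor
  · rintro ⟨⟨j, rfl⟩, hj⟩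
    rcases lt_or_ge j a with h1 | h1
    · exact Or.inl ⟨j, ⟨h1, hj⟩, rfl⟩
    · have h2 : j = a + (j - a) % e + e * ((j - a) / e) := by
        have := Nat.mod_add_div (j - a) e; omega
      refine Or.inr ⟨(j - a) % e, ⟨Nat.mod_lt _ he, ?_⟩, _, rfl, _, ⟨(j - a) / e, rfl⟩, ?_⟩
      · rw [← per ((j - a) / e), ← h2, hj]
      · rw [pw_mul, ← pw_add, ← h2]
  · rintro (⟨j, hj, rfl⟩ | ⟨r, hr, _, rfl, _, ⟨k, rfl⟩, rfl⟩)
    · exact ⟨⟨j, rfl⟩, hj.2⟩
    · rw [pw_mul, ← pw_add]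
      exact ⟨⟨_, rfl⟩, by rw [per, hr.2]⟩

theorem good_Z0 [Finite α] (B L : ℕ) : Good1 (Z0 B L : Set (List α)) := by
  have hs := good_finite (List.finite_length_le α B)
  refine good_congr (good_cat (good_cat hs
    (good_biUnion (List.finite_length_le α L) fun z _ => good_pw z)) hs) fun w => ?_
  simp only [Z0, cat, Set.mem_setOf_eq, Set.mem_iUnion]
  constructor
  · rintro ⟨a, z, b, j, ha, hz, hb, rfl⟩
    exact ⟨_, ⟨a, ha, _, ⟨z, hz, j, rfl⟩, rfl⟩, b, hb, rfl⟩
  · rintro ⟨_, ⟨a, ha, _, ⟨z, hz, j, rfl⟩, rfl⟩, b, hb, rfl⟩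
    exact ⟨a, z, b, j, ha, hz, hb, rfl⟩

theorem good_cong {B : Type} [Finite B] (beh : List α → B)
    (hb : ∀ u v a, beh u = beh v → beh (u ++ [a]) = beh (v ++ [a])) {Z : Set (List α)}
    (hZ : Good1 Z) (R : List α → Prop) (hR : ∀ u v, beh u = beh v → R u → R v) :
    SH 1 {u | u ∈ Z ∧ R u} := by
  classical
  let st : B → α → B := fun b a => if h : ∃ u, beh u = b then beh (h.choose ++ [a]) else b
  have hst : ∀ u p, run st (beh p) u = beh (p ++ u) := by
    intro u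
    induction u with
    | nil => simp
    | cons a u ih =>
      intro p
      have h : ∃ u, beh u = beh p := ⟨p, rfl⟩
      have : st (beh p) a = beh (p ++ [a]) := by
        simp only [st, dif_pos h]
        exact hb _ _ a h.choose_spec
      rw [run_cons, this, ih]
      simp
  refine (SH.biUnion_finite (Set.toFinite {b | ∃ u, beh u = b ∧ R u})
    fun b _ => hZ B st (beh []) b).congr fun w => ?_
  simp only [Set.mem_iUnion, Set.mem_setOf_eq, hst, List.nil_append]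
  exact ⟨fun h => ⟨_, ⟨w, rfl, h.2⟩, h.1, rfl⟩,
    fun ⟨_, ⟨u, h1, h2⟩, h3, h4⟩ => ⟨h3, hR u w (h1.trans h4.symm) h2⟩⟩

variable {step : S → α → S} {ev : S → α → Prop} {Φ : S → X}

theorem s_run (hΦ : Summ step ev Φ) (u : List α) :
    ∀ {s s'}, Φ s = Φ s' → Φ (run step s u) = Φ (run step s' u) := by
  induction u with
  | nil => exact fun h => h
  | cons a u ih => exact fun h => ih (hΦ.stp _ _ a h)

theorem s_noEv (hΦ : Summ step ev Φ) (u : List α) :
    ∀ {s s'}, Φ s = Φ s' → NoEv step ev s u → NoEv step ev s' u := by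
  induction u with
  | nil => exact fun _ h => h
  | cons a u ih => exact fun h h' => ⟨fun h1 => h'.1 (hΦ.evt _ _ a h.symm h1),
      ih (hΦ.stp _ _ a h) h'.2⟩

theorem key (hΦ : Summ step ev Φ) {Z : Set (List α)} (hZ : Good1 Z) (R : List α → Prop)
    (hR : ∀ u v, (∀ s, (NoEv step ev s u ↔ NoEv step ev s v) ∧
      Φ (run step s u) = Φ (run step s v)) → R u → R v) : SH 1 {u | u ∈ Z ∧ R u} := by
  haveI : Finite (Set.range Φ) := hΦ.fin
  let beh : List α → Set.range Φ → Prop × Set.range Φ := fun u x =>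
    (NoEv step ev x.2.choose u, ⟨Φ (run step x.2.choose u), _, rfl⟩)
  have h1 : ∀ u v, beh u = beh v ↔ ∀ s, (NoEv step ev s u ↔ NoEv step ev s v) ∧
      Φ (run step s u) = Φ (run step s v) := by
    intro u v
    constructor
    · intro h s
      have h2 := congrFun h ⟨Φ s, s, rfl⟩
      have h3 : Φ (⟨s, rfl⟩ : Φ s ∈ Set.range Φ).choose = Φ s :=
        (⟨s, rfl⟩ : Φ s ∈ Set.range Φ).choose_spec
      have h4 := congrArg Prod.fst h2
      have h5 := congrArg (fun p => p.2.1) h2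
      simp only [beh] at h4 h5
      refine ⟨⟨fun h6 => s_noEv hΦ v h3 (h4 ▸ s_noEv hΦ u h3.symm h6),
        fun h6 => s_noEv hΦ u h3 (h4 ▸ s_noEv hΦ v h3.symm h6)⟩, ?_⟩
      rw [← s_run hΦ u h3, ← s_run hΦ v h3, h5]
    · intro h
      funext x
      exact Prod.ext (propext (h _).1) (Subtype.ext (h _).2)
  refine good_cong beh (fun u v a h => (h1 _ _).2 fun s => ?_) hZ R
    fun u v h => hR u v ((h1 u v).1 h)
  obtain ⟨h2, h3⟩ := (h1 u v).1 h s
  rw [noEv_append, noEv_append, run_append, run_append]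
  exact ⟨⟨fun h4 => ⟨h2.1 h4.1, s_noEv hΦ _ h3 h4.2⟩,
    fun h4 => ⟨h2.2 h4.1, s_noEv hΦ _ h3.symm h4.2⟩⟩, s_run hΦ _ h3⟩

theorem first_ev (w : List α) : ∀ s, ¬ NoEv step ev s w →
    ∃ u a v, w = u ++ ([a] ++ v) ∧ NoEv step ev s u ∧ ev (run step s u) a := by
  induction w with
  | nil => exact fun s h => absurd trivial h
  | cons a w ih =>
    intro s h
    by_cases h1 : ev s a
    · exact ⟨[], a, w, rfl, trivial, h1⟩
    · obtain ⟨u, b, v, rfl, h2, h3⟩ := ih (step s a) fun h2 => h ⟨h1, h2⟩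
      exact ⟨a :: u, b, v, rfl, ⟨h1, h2⟩, h3⟩

theorem kst_nil (K : Set (List α)) : [] ∈ kst K := ⟨[], by simp, rfl⟩

theorem kst_cons {K : Set (List α)} {k u : List α} (hk : k ∈ K) (hu : u ∈ kst K) :
    k ++ u ∈ kst K := by
  obtain ⟨L, hL, rfl⟩ := hu
  exact ⟨k :: L, by simpa using ⟨hk, hL⟩, rfl⟩

theorem kst_ind {K : Set (List α)} {p : List α → Prop} (h0 : p [])
    (h1 : ∀ k u, k ∈ K → p u → p (k ++ u)) {u : List α} (hu : u ∈ kst K) : p u := by
  obtain ⟨L, hL, rfl⟩ := hu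
  induction L with
  | nil => exact h0
  | cons k L ih => exact h1 k _ (hL k (by simp)) (ih fun u hu => hL u (by simp [hu]))

end Ht

open Ht

theorem good1_Zn [Finite α] (B L n : ℕ) : Good1 (Zn B L n : Set (List α)) := by
  induction n with
  | zero =>
    refine good_finite ((Set.finite_singleton []).subset ?_)
    rintro _ ⟨l, hl, -, rfl⟩
    rw [List.length_eq_zero_iff.1 (Nat.le_zero.1 hl)]
    rfl
  | succ n ih =>
    refine good_congr (good_union ih (good_cat (good_Z0 B L) ih)) fun w => ?_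
    constructor
    · rintro ⟨l, hl, h, rfl⟩
      cases l with
      | nil => exact Or.inl ⟨[], Nat.zero_le _, h, rfl⟩
      | cons v l => exact Or.inr ⟨v, h v (by simp), _,
          ⟨l, by simpa using hl, fun u hu => h u (by simp [hu]), rfl⟩, rfl⟩
    · rintro (⟨l, hl, h, rfl⟩ | ⟨v, hv, _, ⟨l, hl, h, rfl⟩, rfl⟩)
      · exact ⟨l, hl.trans n.le_succ, h, rfl⟩
      · exact ⟨v :: l, by simpa using hl, by simpa using ⟨hv, h⟩, rfl⟩

/-- the inner star -/
theorem inner_star [Finite α] {step : S → α → S} {ev : S → α → Prop} {Φ : S → X}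
    (hΦ : Summ step ev Φ) (F : Set S) {Z : Set (List α)} (hZ : Good1 Z) (s₀ : S)
    (fac : ∀ w, NoEv step ev s₀ w → w ∈ Z ∨ ∃ p v, w = p ++ v ∧ p ∈ Z ∧ run step s₀ p ∈ F ∧
      IChain step ev F Z (run step s₀ w) v) (x : X) :
    SH 2 {w | NoEv step ev s₀ w ∧ Φ (run step s₀ w) = x} := by
  let P : Set (List α) := {p | p ∈ Z ∧ Φ (run step s₀ p) ∈ Φ '' F}
  let K : Set (List α) := {k | k ∈ Z ∧ ∀ s ∈ F, NoEv step ev s k → Φ (run step s k) ∈ Φ '' F}
  let Sf : X → Set (List α) := fun x =>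
    {v | v ∈ Z ∧ ∀ s ∈ F, NoEv step ev s v → Φ (run step s v) = x}
  let T : X → Set (List α) := fun x =>
    {w | w ∈ Z ∧ Φ (run step s₀ w) = x} ∪ cat P (cat (kst K) (Sf x))
  have hT : ∀ x, SH 2 (T x) := fun x =>
    ((key hΦ hZ _ fun u v h hu => by rwa [← (h s₀).2]).mono one_le_two).union
      (((key hΦ hZ _ fun u v h hu => by rwa [← (h s₀).2]).mono one_le_two).cat
        ((key hΦ hZ _ fun u v h hu s hs hv => by
          rw [← (h s).2]; exact hu s hs ((h s).1.2 hv)).kst.cat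
        ((key hΦ hZ _ fun u v h hu s hs hv => by
          rw [← (h s).2]; exact hu s hs ((h s).1.2 hv)).mono one_le_two)))
  have ha : ∀ w, NoEv step ev s₀ w → w ∈ T (Φ (run step s₀ w)) := by
    intro w hw
    rcases fac w hw with h | ⟨p, v, h1, h2, h3, h4⟩
    · exact Or.inl ⟨h, rfl⟩
    · refine Or.inr ⟨p, ⟨h2, _, h3, rfl⟩, v, ?_, h1.symm⟩
      clear h1
      induction h4 with
      | last v hv h => exact ⟨[], kst_nil K, v, ⟨hv, fun s hs h' => by rw [h s hs h']⟩, rfl⟩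
      | cons k w hk h _ ih =>
        obtain ⟨u, hu, v, hv, rfl⟩ := ih
        exact ⟨k ++ u, kst_cons ⟨hk, fun s hs h' => ⟨_, h s hs h', rfl⟩⟩ hu, v, hv, by simp⟩
  have hb : ∀ x, ∀ w ∈ T x, NoEv step ev s₀ w → Φ (run step s₀ w) = x := by
    rintro x w (h | ⟨p, hp, _, ⟨u, hu, v, hv, rfl⟩, rfl⟩) hw
    · exact h.2
    · have h1 : ∀ s, Φ s ∈ Φ '' F → NoEv step ev s u → Φ (run step s u) ∈ Φ '' F := by
        refine kst_ind (p := fun u => ∀ s, Φ s ∈ Φ '' F → NoEv step ev s u →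
          Φ (run step s u) ∈ Φ '' F) (fun s h _ => h) (fun k u hk ih s hs h => ?_) hu
        obtain ⟨s', h1, h2⟩ := hs
        rw [noEv_append] at h
        rw [run_append]
        exact ih _ (s_run hΦ k h2 ▸ hk.2 s' h1 (s_noEv hΦ k h2.symm h.1)) h.2
      rw [noEv_append, noEv_append] at hw
      obtain ⟨s', h2, h3⟩ := h1 _ hp.2 hw.2.1
      rw [run_append, run_append, ← s_run hΦ v h3]
      exact hv.2 s' h2 (s_noEv hΦ v h3.symm hw.2.2)
  refine ((hT x).diff (SH.biUnion_finite hΦ.fin fun y _ => SH.iUnion fun a : α =>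
    SH.iUnion_prop (p := ∃ s, Φ s = y ∧ ev s a) fun _ =>
      (hT y).cat ((SH.single a).cat SH.univ))).congr fun w => ?_
  simp only [Set.mem_diff, Set.mem_iUnion, Set.mem_setOf_eq]
  constructor
  · rintro ⟨hw, rfl⟩
    refine ⟨ha w hw, ?_⟩
    rintro ⟨y, -, a, ⟨s, rfl, hs⟩, u, hu, _, ⟨_, rfl, v, -, rfl⟩, rfl⟩
    rw [noEv_append] at hw
    exact hw.2.1 (hΦ.evt _ _ a (hb _ u hu hw.1).symm hs)
  · rintro ⟨h1, h2⟩
    have hw : NoEv step ev s₀ w := by
      by_contra hw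
      obtain ⟨u, a, v, rfl, h3, h4⟩ := first_ev w s₀ hw
      exact h2 ⟨_, ⟨_, rfl⟩, a, ⟨_, rfl, h4⟩, u, ha u h3, _, ⟨_, rfl, v, trivial, rfl⟩, rfl⟩
    exact ⟨hw, hb x w h1 hw⟩

/-- the outer star -/
theorem outer_star [Finite α] {step : S → α → S} {ev : S → α → Prop} {Φ : S → X}
    (hΦ : Summ step ev Φ) (F I : Set S) (hI : I.Finite) {Z : Set (List α)} (hZ : Good1 Z)
    (h2 : ∀ s ∈ I, ∀ x : X, SH 2 {w | NoEv step ev s w ∧ Φ (run step s w) = x})
    (s₀ : S) (hs₀ : s₀ ∈ I)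
    (fac : ∀ w, NoEv step ev s₀ w ∨ ∃ p v, w = p ++ v ∧ NoEv step ev s₀ p ∧ run step s₀ p ∈ F ∧
      OChain step ev F I Z v) (x : X) :
    SH 3 {w | Φ (run step s₀ w) = x} := by
  let Sy : S → Set (List α) := fun t => {b | b ∈ Z ∧ ∀ s ∈ F, Φ (run step s b) = Φ t}
  let Tt : S → X → Set (List α) := fun t y => {w | NoEv step ev t w ∧ Φ (run step t w) = y}
  let Sf : X → Set (List α) := fun y => ⋃ t ∈ I, cat (Sy t) (Tt t y)
  let K : Set (List α) := ⋃ y ∈ Φ '' F, Sf y
  have hF : (Φ '' F).Finite := hΦ.fin.subset (Set.image_subset_range _ _)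
  have h23 : 2 ≤ 3 := by norm_num
  have hSf : ∀ y, SH 2 (Sf y) := fun y => SH.biUnion_finite hI fun t ht =>
    ((key hΦ hZ _ fun u v h hu s hs => by rw [← (h s).2]; exact hu s hs).mono one_le_two).cat
      (h2 t ht y)
  have sound : ∀ y, ∀ k ∈ Sf y, ∀ s, Φ s ∈ Φ '' F → Φ (run step s k) = y := by
    intro y k hk s ⟨s', h3, h4⟩
    simp only [Sf, Set.mem_iUnion] at hk
    obtain ⟨t, -, b, hb, m, hm, rfl⟩ := hk
    rw [run_append, s_run hΦ m ((s_run hΦ b h4).symm.trans (hb.2 s' h3)), hm.2]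
  have piece : ∀ b m t, b ∈ Z → t ∈ I → (∀ s ∈ F, run step s b = t) → NoEv step ev t m →
      b ++ m ∈ Sf (Φ (run step t m)) := fun b m t hb ht h hm => by
    simp only [Sf, Set.mem_iUnion]
    exact ⟨t, ht, b, ⟨hb, fun s hs => by rw [h s hs]⟩, m, ⟨hm, rfl⟩, rfl⟩
  refine (((h2 s₀ hs₀ x).mono h23).union
    (((SH.biUnion_finite hF fun y _ => h2 s₀ hs₀ y).mono h23).cat
      ((SH.biUnion_finite hF fun y _ => hSf y).kst.cat ((hSf x).mono h23)))).congr fun w => ?_
  constructor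
  · rintro rfl
    rcases fac w with h | ⟨p, v, rfl, h3, h4, h5⟩
    · exact Or.inl ⟨h, rfl⟩
    · refine Or.inr ⟨p, Set.mem_biUnion (x := Φ (run step s₀ p)) ⟨_, h4, rfl⟩ ⟨h3, rfl⟩, v, ?_, rfl⟩
      rw [run_append]
      have h6 : Φ (run step s₀ p) ∈ Φ '' F := ⟨_, h4, rfl⟩
      generalize run step s₀ p = s at h6
      induction h5 generalizing s with
      | last b m t hb ht h hm =>
        have := piece b m t hb ht h hm
        exact ⟨[], kst_nil _, _, by rwa [sound _ _ this s h6], rfl⟩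
      | cons b m w t hb ht h hm hF' _ ih =>
        have := piece b m t hb ht h hm
        obtain ⟨u, hu, v, hv, rfl⟩ := ih (run step s (b ++ m))
          (by rw [sound _ _ this s h6]; exact ⟨_, hF', rfl⟩)
        exact ⟨b ++ m ++ u, kst_cons (Set.mem_biUnion (x := Φ (run step t m)) ⟨_, hF', rfl⟩ this)
          hu, v, by rwa [run_append], by simp⟩
  · rintro (h | ⟨p, hp, _, ⟨u, hu, v, hv, rfl⟩, rfl⟩)
    · exact h.2
    · simp only [Set.mem_iUnion] at hp
      obtain ⟨y, hy, -, rfl⟩ := hp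
      have h1 : ∀ s, Φ s ∈ Φ '' F → Φ (run step s u) ∈ Φ '' F := by
        refine kst_ind (p := fun u => ∀ s, Φ s ∈ Φ '' F → Φ (run step s u) ∈ Φ '' F)
          (fun s h => h) (fun k u hk ih s hs => ?_) hu
        simp only [Set.mem_iUnion] at hk
        obtain ⟨y, hy, hk⟩ := hk
        rw [run_append]
        exact ih _ (by rwa [sound y k hk s hs])
      show Φ (run step s₀ (p ++ (u ++ v))) = x
      rw [run_append, run_append]
      exact sound x v hv _ (h1 _ hy)

/-- a language which is determined by two finite observations -/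
theorem determined {X₁ X₂ : Type} {k : ℕ} (Q L : List α → Prop) (f₁ : List α → X₁)
    (f₂ : List α → X₂) (h₁ : (Set.range f₁).Finite) (h₂ : (Set.range f₂).Finite)
    (s₁ : ∀ x, SH k {w | Q w ∧ f₁ w = x}) (s₂ : ∀ x, SH k {w | Q w ∧ f₂ w = x})
    (hL : ∀ w w', Q w → Q w' → f₁ w = f₁ w' → f₂ w = f₂ w' → L w → L w') :
    SH k {w | Q w ∧ L w} := by
  have hf : ((fun w => (f₁ w, f₂ w)) '' {w | Q w ∧ L w}).Finite :=
    (h₁.prod h₂).subset (by rintro _ ⟨w, -, rfl⟩; exact ⟨⟨w, rfl⟩, ⟨w, rfl⟩⟩)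
  refine (SH.biUnion_finite hf fun x _ => (s₁ x.1).inter (s₂ x.2)).congr fun w => ?_
  simp only [Set.mem_iUnion, Set.mem_setOf_eq, Set.mem_inter_iff]
  constructor
  · exact fun h => ⟨_, ⟨w, h, rfl⟩, ⟨h.1, rfl⟩, h.1, rfl⟩
  · rintro ⟨_, ⟨v, hv, rfl⟩, h3, h4⟩
    exact ⟨h3.1, hL v w hv.1 h3.1 h3.2.symm h4.2.symm hv.2⟩

end Vale.Agent.P329Z
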