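import Vale.Agent.P329Z.Base
import Mathlib.Data.Nat.Factorial.Basic
import Mathlib.Data.Countable.Basic
import Mathlib.Logic.Equiv.List
import Mathlib.Order.Bounds.Basic
import Mathlib.Data.Set.Finite.Lemmas

set_option linter.all false

/-!
Marks which are far apart, words without marks are nearly periodic.
-/

namespace Vale.Agent.P329Z

namespace Mr

variable {α : Type} {m d i j t D L N n : ℕ} {u v : List α}

/-- the window of length `m` at `i` -/
def win (m : ℕ) (u : List α) (i : ℕ) : List α := (u.drop i).take m

/-- `d` is a period -/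
def Per (d : ℕ) (v : List α) : Prop := ∀ t, t + d < v.length → v[t]? = v[t + d]?

/-- no small period -/
def Aper (D : ℕ) (v : List α) : Prop := ∀ d, 1 ≤ d → d ≤ D → ¬ Per d v

theorem win_get (h : t < m) : (win m u i)[t]? = u[i + t]? := by
  simp [win, List.getElem?_take, h]

theorem win_len (h : i + m ≤ u.length) : (win m u i).length = m := by
  simp only [win, List.length_take, List.length_drop]; omega

theorem win_len_le : (win m u i).length ≤ m := List.length_take_le _ _

theorem win_win (h1 : N ≤ n) (h2 : j + m ≤ N) :
    win m ((u.take n).drop (n - N)) j = win m u (n - N + j) := by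
  refine List.ext_getElem? fun t => ?_
  by_cases h : t < m
  · rw [win_get h, win_get h, List.getElem?_drop, List.getElem?_take, if_pos (by omega), add_assoc]
  · rw [List.getElem?_eq_none (win_len_le.trans (not_lt.1 h)),
      List.getElem?_eq_none (win_len_le.trans (not_lt.1 h))]

theorem Per.mul (h : Per d v) (k : ℕ) : Per (d * k) v := by
  induction k with
  | zero => intro t _; rfl
  | succ k ih =>
    intro t ht
    rw [Nat.mul_succ] at ht
    rw [ih t (by omega), h _ (by omega), Nat.mul_succ, add_assoc]

theorem per_of_eq (h : win m u (i + d) = win m u i) : Per d (win m u i) := fun t ht => by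
  have := ht.trans_le win_len_le
  rw [win_get this, ← h, win_get (by omega)]
  congr 1; omega

theorem per_split (hL : 0 < L) : ∀ n, ∀ x : List α, x.length ≤ n → Per L x →
    ∃ j r, r.length ≤ L ∧ x = (List.replicate j (x.take L)).flatten ++ r := by
  intro n
  induction n with
  | zero => exact fun x h _ => ⟨0, x, by omega, rfl⟩
  | succ n ih =>
    intro x h hx
    by_cases h1 : x.length ≤ 2 * L
    · by_cases h2 : x.length ≤ L
      · exact ⟨0, x, h2, rfl⟩
      · exact ⟨1, x.drop L, by simp only [List.length_drop]; omega, by simp⟩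
    · obtain ⟨j, r, h2, h3⟩ := ih (x.drop L) (by simp only [List.length_drop]; omega) fun t ht => by
        rw [List.length_drop] at ht
        rw [List.getElem?_drop, List.getElem?_drop, hx _ (by omega), add_assoc]
      have e : (x.drop L).take L = x.take L := List.ext_getElem? fun t => by
        rw [List.getElem?_take, List.getElem?_take]
        split_ifs with h4
        · rw [List.getElem?_drop, hx t (by omega), add_comm]
        · rfl
      refine ⟨j + 1, r, h2, ?_⟩
      rw [List.replicate_succ, List.flatten_cons, List.append_assoc, ← e, ← h3, e,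
        List.take_append_drop]

end Mr

open Mr in
theorem exists_marks (α : Type) [Finite α] (D : ℕ) :
    ∃ (N L B : ℕ) (U : Set (List α)), 0 < N ∧ (∀ u : List α, Sparse D (Mk N U u)) ∧
      ∀ u : List α, (∀ i, ¬ Mk N U u i) → u ∈ (Z0 B L : Set (List α)) := by
  obtain ⟨col, hcol⟩ := exists_injective_nat (List α)
  obtain ⟨L, hL⟩ : ∃ L, L = D.factorial := ⟨_, rfl⟩
  have hL0 : 0 < L := hL ▸ D.factorial_pos
  obtain ⟨C, hC⟩ := ((List.finite_length_le α (L + 1)).image col).bddAbove
  refine ⟨2 * D + (L + 1), L, (C + 1) * D + L, {v | Aper D (win (L + 1) v D) ∧ ∀ j ≤ 2 * D,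
    j ≠ D → Aper D (win (L + 1) v j) → col (win (L + 1) v D) < col (win (L + 1) v j)},
    by omega, fun u i j hi hj hij => ?_, fun u hu => ?_⟩
  · by_contra hc
    obtain ⟨i1, -, i2, i3⟩ := hi
    obtain ⟨j1, -, j2, j3⟩ := hj
    have i4 := i3 (D + (j - i)) (by omega) (by omega)
    have j4 := j3 (D - (j - i)) (by omega) (by omega)
    rw [win_win i1 (by omega)] at i2
    rw [win_win j1 (by omega)] at j2
    rw [win_win i1 (by omega), win_win i1 (by omega), show i - (2 * D + (L + 1)) + (D + (j - i)) =
      j - (2 * D + (L + 1)) + D by omega] at i4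
    rw [win_win j1 (by omega), win_win j1 (by omega), show j - (2 * D + (L + 1)) + (D - (j - i)) =
      i - (2 * D + (L + 1)) + D by omega] at j4
    exact absurd (i4 j2) (not_lt.2 (j4 i2).le)
  · have H : ∀ i, D ≤ i → i + (L + 1) + D ≤ u.length → Aper D (win (L + 1) u i) →
        ∃ j, j ≤ i + D ∧ i ≤ j + D ∧ Aper D (win (L + 1) u j) ∧
          col (win (L + 1) u j) < col (win (L + 1) u i) := by
      intro i h1 h2 h3
      by_contra hc
      have h4 : 2 * D + (L + 1) ≤ i + (L + 1) + D := by omega
      have h5 : i + (L + 1) + D - (2 * D + (L + 1)) + D = i := by omega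
      refine hu (i + (L + 1) + D) ⟨h4, h2, by rwa [win_win h4 (by omega), h5], fun j j1 j2 => ?_⟩
      rw [win_win h4 (by omega), win_win h4 (by omega), h5]
      obtain ⟨k, hk⟩ : ∃ k, k = i + (L + 1) + D - (2 * D + (L + 1)) + j := ⟨_, rfl⟩
      rw [← hk]
      intro h6
      refine lt_of_le_of_ne (not_lt.1 fun h7 => hc ⟨k, by omega, by omega, h6, h7⟩) fun h7 => ?_
      have h8 := hcol h7
      rcases lt_or_gt_of_ne j2 with h9 | h9
      · exact h6 (i - k) (by omega) (by omega)
          (per_of_eq (by rw [show k + (i - k) = i by omega, h8]))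
      · exact h3 (k - i) (by omega) (by omega)
          (per_of_eq (by rw [show i + (k - i) = k by omega, h8]))
    have K : ∀ c i, col (win (L + 1) u i) < c → c * D ≤ i → i + (L + 1) + c * D ≤ u.length →
        ¬ Aper D (win (L + 1) u i) := by
      intro c
      induction c with
      | zero => omega
      | succ c ih =>
        intro i h1 h2 h3 h4
        rw [Nat.succ_mul] at h2 h3
        obtain ⟨j, j1, j2, j3, j4⟩ := H i (by omega) (by omega) h4
        exact ih j (by omega) (by omega) (by omega) j3
    obtain ⟨k, hk⟩ : ∃ k, k = (C + 1) * D := ⟨_, rfl⟩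
    rw [← hk]
    obtain ⟨j, r, h1, h2⟩ := per_split hL0 _ (win (u.length - 2 * k) u k) le_rfl fun t ht => by
      have ht' := ht.trans_le win_len_le
      have := K (C + 1) (k + t) (Nat.lt_succ_of_le (hC ⟨_, win_len_le, rfl⟩)) (by omega) (by omega)
      simp only [Aper, not_forall, not_not] at this
      obtain ⟨d, d1, d2, d3⟩ := this
      obtain ⟨e, he⟩ := Nat.dvd_factorial d1 d2
      have h3 := d3.mul e 0 (by rw [win_len (by omega)]; omega)
      rw [← he, ← hL, win_get (by omega), win_get (by omega)] at h3
      rw [win_get (by omega), win_get ht', ← add_assoc]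
      simpa using h3
    refine ⟨u.take k, (win (u.length - 2 * k) u k).take L, r ++ (u.drop k).drop (u.length - 2 * k), j,
      (List.length_take_le _ _).trans (by omega), List.length_take_le L _, ?_, ?_⟩
    · simp only [List.length_append, List.length_drop]; omega
    · rw [List.append_assoc, ← List.append_assoc _ r, ← h2, win, List.take_append_drop,
        List.take_append_drop]

end Vale.Agent.P329Z
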