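import Vale.Agent.P329Z.Inner
import Vale.Agent.P329Z.Height
import Vale.Agent.P329Z.Marks
import Vale.Agent.P329Z.Arith
import Mathlib.Computability.DFA
import Mathlib.Data.Finsupp.Fintype

set_option linter.all false

/-!
The choice of the parameters, and the bound three.
-/

namespace Vale.Agent.P329Z

open Vale.Agent.P329.Clock (Srv lines)

section arith

theorem pow_sum_le {i j k l : ℕ} (h : 2 ^ i + 2 ^ j = 2 ^ k + 2 ^ l) (hkl : k ≤ l) : j ≤ l := by
  by_contra hlt
  have h1 : 2 ^ k ≤ 2 ^ l := Nat.pow_le_pow_right (by norm_num) hkl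
  have h2 : 2 ^ (l + 1) ≤ 2 ^ j := Nat.pow_le_pow_right (by norm_num) (by omega)
  have h3 : 0 < 2 ^ i := by positivity
  rw [pow_succ] at h2
  omega

theorem pow_sidon' {i j k l : ℕ} (h : 2 ^ i + 2 ^ j = 2 ^ k + 2 ^ l) (hij : i ≤ j)
    (hkl : k ≤ l) : i = k ∧ j = l := by
  have h1 : j = l := le_antisymm (pow_sum_le h hkl) (pow_sum_le h.symm hij)
  subst h1
  exact ⟨Nat.pow_right_injective le_rfl (Nat.add_right_cancel h), rfl⟩

theorem pow_sidon {i j k l : ℕ} (h : 2 ^ i + 2 ^ j = 2 ^ k + 2 ^ l) :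
    (i = k ∧ j = l) ∨ (i = l ∧ j = k) := by
  rcases le_total i j with h1 | h1 <;> rcases le_total k l with h2 | h2
  · exact Or.inl (pow_sidon' h h1 h2)
  · rw [add_comm (2 ^ k)] at h
    exact Or.inr (pow_sidon' h h1 h2)
  · rw [add_comm (2 ^ i)] at h
    have := pow_sidon' h h1 h2
    exact Or.inr ⟨this.2, this.1⟩
  · rw [add_comm (2 ^ i), add_comm (2 ^ k)] at h
    have := pow_sidon' h h1 h2
    exact Or.inl ⟨this.2, this.1⟩

theorem exists_idx (K : ℕ) (A : Type) [Finite A] : ∃ (n : ℕ) (idx : Fin K × A → ℕ),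
    Function.Injective idx ∧ ∀ r, n * r.1 ≤ idx r ∧ idx r < n * (r.1 + 1) := by
  obtain ⟨n, ⟨e⟩⟩ := Finite.exists_equiv_fin A
  refine ⟨n, fun r => n * r.1 + e r.2, ?_, fun r => ⟨Nat.le_add_right _ _, ?_⟩⟩
  · rintro ⟨k, x⟩ ⟨l, y⟩ h
    dsimp only at h
    have hx := (e x).2
    have hy := (e y).2
    have h0 : 0 < n := by omega
    have h1 : (k : ℕ) = l := by
      have e1 : (n * k + e x) / n = k := by
        rw [Nat.mul_add_div h0, Nat.div_eq_of_lt hx, add_zero]
      have e2 : (n * l + e y) / n = l := by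
        rw [Nat.mul_add_div h0, Nat.div_eq_of_lt hy, add_zero]
      rw [← e1, h, e2]
    have h2 : (e x : ℕ) = e y := by rw [h1] at h; omega
    rw [Fin.ext h1, e.injective (Fin.ext h2)]
  · have hx := (e r.2).2
    dsimp only
    rw [Nat.mul_add, Nat.mul_one]
    omega

theorem exists_offsets (K : ℕ) (A : Type) [Finite A] : ∃ S : ℕ, ∀ U : ℕ,
    ∃ (t : ℕ → ℕ) (p : Fin K × A → ℕ), t 0 = 0 ∧ (∀ j, j + 1 < K → t j ≤ t (j + 1)) ∧
      (∀ (r : Fin K × A) (j : ℕ), j < r.1 → t (j + 1) ≤ p r) ∧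
      (∀ (r : Fin K × A) (j : ℕ), (r.1 : ℕ) < j → j < K → p r ≤ t j) ∧
      (∀ j < K, t j ≤ S * U) ∧ (∀ r, p r ≤ S * U) ∧
      ∀ r r' s s', (r = r' ∧ s = s') ∨ (r = s ∧ r' = s') ∨
        ∃ c : ℤ, 16 ≤ |c| ∧ |c| ≤ S ∧ (p r : ℤ) - p r' - p s + p s' = c * U := by
  obtain ⟨n, idx, hinj, hidx⟩ := exists_idx K A
  have mono : ∀ (U : ℕ) {i j : ℕ}, i ≤ j → 16 * 2 ^ i * U ≤ 16 * 2 ^ j * U := fun U i j h =>
    Nat.mul_le_mul_right _ (Nat.mul_le_mul_left _ (Nat.pow_le_pow_right (by norm_num) h))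
  have hlt : ∀ r, idx r ≤ n * K := fun r =>
    (hidx r).2.le.trans (Nat.mul_le_mul_left _ r.1.2)
  refine ⟨16 * 2 ^ (n * K + 1), fun U => ⟨fun j => if j = 0 then 0 else 16 * 2 ^ (n * j) * U,
    fun r => 16 * 2 ^ idx r * U, if_pos rfl, ?_, ?_, ?_, ?_, ?_, ?_⟩⟩
  · intro j _
    dsimp only
    rw [if_neg (Nat.succ_ne_zero j)]
    split_ifs with h1
    · exact Nat.zero_le _
    · exact mono U (Nat.mul_le_mul_left _ (Nat.le_succ j))
  · intro r j hj
    dsimp only
    rw [if_neg (Nat.succ_ne_zero j)]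
    exact mono U ((Nat.mul_le_mul_left _ hj).trans (hidx r).1)
  · intro r j hj _
    dsimp only
    rw [if_neg (by omega)]
    exact mono U ((hidx r).2.le.trans (Nat.mul_le_mul_left _ hj))
  · intro j hj
    dsimp only
    split_ifs with h1
    · exact Nat.zero_le _
    · exact mono U ((Nat.mul_le_mul_left _ hj.le).trans (Nat.le_succ _))
  · intro r
    exact mono U ((hlt r).trans (Nat.le_succ _))
  · intro r r' s s'
    by_cases h : 2 ^ idx r + 2 ^ idx s' = 2 ^ idx r' + 2 ^ idx s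
    · rcases pow_sidon h with h1 | h1
      · exact Or.inl ⟨hinj h1.1, (hinj h1.2).symm⟩
      · exact Or.inr (Or.inl ⟨hinj h1.1, (hinj h1.2).symm⟩)
    · have b : ∀ r, 2 ^ idx r ≤ 2 ^ (n * K) := fun r => Nat.pow_le_pow_right (by norm_num) (hlt r)
      have b1 := b r
      have b2 := b r'
      have b3 := b s
      have b4 := b s'
      dsimp only
      generalize 2 ^ idx r = m1 at h b1 ⊢
      generalize 2 ^ idx r' = m2 at h b2 ⊢
      generalize 2 ^ idx s = m3 at h b3 ⊢
      generalize 2 ^ idx s' = m4 at h b4 ⊢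
      refine Or.inr (Or.inr ⟨16 * ((m1 : ℤ) - m2 - m3 + m4), ?_, ?_, ?_⟩)
      · rw [le_abs]
        omega
      · rw [pow_succ, abs_le]
        constructor <;> omega
      · push_cast
        ring

end arith

section transfer

variable {α V : Type} [AddCommGroup V]

/-- the composition of a list of maps -/
def fold (l : List (V → V)) (x : V) : V := l.foldl (fun x H => H x) x

/-- the linearized composition -/
noncomputable def hI (K : ℕ) (a : Fin K → (V → V)) (y : V →₀ ZMod 2) : V →₀ ZMod 2 :=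
  Finsupp.mapDomain (fold (List.ofFn a)) y

theorem ofFn_toF {M : Type} [Inhabited M] {K : ℕ} {l : List M} (h : l.length = K) :
    List.ofFn (toF K l) = l := by
  subst h
  apply List.ext_getElem
  · simp
  · intro i h1 h2
    simp [toF, h2]

variable [Inhabited V] {K : ℕ} {D : Dt α V (SI (V → V) (V →₀ ZMod 2) K × Bool)} (hK : 0 < K)
  (f : (Fin K → (V → V)) → (V →₀ ZMod 2))

/-- two runs of the inner machine determine a run of the outer machine -/
def Rel (s : List α × V) (s₁ s₂ : List α × SI (V → V) (V →₀ ZMod 2) K) : Prop :=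
  s.1 = s₁.1 ∧ s.1 = s₂.1 ∧ s₁.2.1 = s₂.2.1 ∧
    ∃ x, s₁.2.2 - s₂.2.2 = Finsupp.single x 1 ∧ s.2 = fold s₁.2.1.1 x

theorem Rel.step {s : List α × V} {s₁ s₂ : List α × SI (V → V) (V →₀ ZMod 2) K}
    (h : Rel s s₁ s₂) (a : α) :
    Rel (D.stepE s a) (D.stepI hK (hI K) f s₁ a) (D.stepI hK (hI K) f s₂ a) := by
  obtain ⟨g, x⟩ := s
  obtain ⟨g₁, l₁, y₁⟩ := s₁
  obtain ⟨g₂, l₂, y₂⟩ := s₂
  obtain ⟨h1, h2, h3, x₀, h4, h5⟩ := h
  dsimp only at h1 h2 h3 h4 h5
  subst h1 h2 h3 h5
  unfold Dt.stepE Dt.stepI gstep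
  dsimp only
  split_ifs with he
  · unfold upd
    dsimp only
    split_ifs with hl
    · refine ⟨rfl, rfl, rfl, x₀, h4, ?_⟩
      simp [fold]
    · have hl' : (l₁.1 ++ [D.actE (g ++ [a])]).length = K := by
        have := l₁.2
        simp only [List.length_append, List.length_cons, List.length_nil] at hl ⊢
        omega
      refine ⟨rfl, rfl, rfl, fold (l₁.1 ++ [D.actE (g ++ [a])]) x₀, ?_, ?_⟩
      · simp only [st0, hI, ofFn_toF hl']
        rw [add_sub_add_right_eq_sub]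
        have := map_sub (Finsupp.mapDomain.addMonoidHom (M := ZMod 2)
          (fold (l₁.1 ++ [D.actE (g ++ [a])]))) y₁ y₂
        simp only [Finsupp.mapDomain.addMonoidHom_apply] at this
        rw [← this, h4, Finsupp.mapDomain_single]
      · simp [fold, st0]
  · exact ⟨rfl, rfl, rfl, x₀, h4, rfl⟩

theorem Rel.run {s : List α × V} {s₁ s₂ : List α × SI (V → V) (V →₀ ZMod 2) K}
    (h : Rel s s₁ s₂) (w : List α) : Rel (run D.stepE s w) (run (D.stepI hK (hI K) f) s₁ w)
      (run (D.stepI hK (hI K) f) s₂ w) := by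
  induction w generalizing s s₁ s₂ with
  | nil => exact h
  | cons a w ih => exact ih (h.step hK f a)

include hK in
theorem height_two [Finite α] [Finite V] (hD : D.Ok)
    (hε : ∀ s b, D.ε (s, b) = if b then 1 else -1)
    (hf : ∀ a y, ∃ k, Srv (hI K) k a y f) {B L : ℕ}
    (hZ : ∀ g, Pre D.N D.Um D.θ g → g ∈ (Z0 B L : Set (List α))) (x : V)
    (o : (List α × (Fin (D.Θ + 1) → V → V) × ZMod D.q × List α) × V) :
    SH 2 {w | NoEv D.stepE (D.ev V) ([], x) w ∧
      (D.phi (run D.stepE ([], x) w).1, (run D.stepE ([], x) w).2) = o} := by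
  haveI : Finite {l : List (V → V) // l.length < K} := finite_short
  haveI : Finite (V →₀ ZMod 2) := Finite.of_equiv _ Finsupp.equivFunOnFinite.symm
  have hS := Dt.summ hD (σ := SI (V → V) (V →₀ ZMod 2) K) (upd hK (hI K) f)
  have key : ∀ (y : V →₀ ZMod 2) o', SH 2 {w | NoEv D.stepE (D.ev V) ([], x) w ∧
      (D.phi (run (D.stepI hK (hI K) f) ([], st0 hK y) w).1,
        (run (D.stepI hK (hI K) f) ([], st0 hK y) w).2) = o'} := by
    intro y o'
    have h1 := inner_star hS D.FI (good1_Zn (α := α) B L (3 * K + 1)) ([], st0 hK y) (by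
      intro w _
      obtain ⟨Gs, g, rfl, h2, h3⟩ := decomp (N := D.N) (U := D.Um) hD.θpos w
      rcases Dt.inner_fac hK (hI K) f hD hε hf hZ h3 _ Gs le_rfl h2 y with h4 | ⟨p, v, h4, h5, h6, h7⟩
      · exact Or.inl (Zn.mono (by omega) h4)
      · exact Or.inr ⟨p, v, h4, Zn.mono (by omega) h5, h6, h7⟩) o'
    refine h1.congr fun w => and_congr_left fun _ => ?_
    exact noEv_fst (s := ([], x)) (s' := ([], st0 hK y)) rfl w
  have fin : ∀ y : V →₀ ZMod 2, (Set.range fun w =>
      (D.phi (run (D.stepI hK (hI K) f) ([], st0 hK y) w).1,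
        (run (D.stepI hK (hI K) f) ([], st0 hK y) w).2)).Finite := by
    intro y
    refine hS.fin.subset ?_
    rintro _ ⟨w, rfl⟩
    exact ⟨_, rfl⟩
  refine determined _ _ _ _ (fin (Finsupp.single x 1)) (fin 0) (key _) (key _) ?_
  intro w w' _ _ h1 h2 h3
  have r0 : Rel (K := K) (([], x) : List α × V) ([], st0 hK (Finsupp.single x 1)) ([], st0 hK 0) :=
    ⟨rfl, rfl, rfl, x, sub_zero _, rfl⟩
  obtain ⟨a1, _, _, x₁, a4, a5⟩ := r0.run (D := D) hK f w
  obtain ⟨b1, _, _, x₂, b4, b5⟩ := r0.run (D := D) hK f w'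
  obtain ⟨c1, c2⟩ := Prod.mk.inj h1
  obtain ⟨_, c4⟩ := Prod.mk.inj h2
  rw [c2, c4, b4] at a4
  rw [← h3, a1, b1, a5, b5, c1, c2, Finsupp.single_left_injective one_ne_zero a4]

theorem run_diff {T : Type} (D : Dt α V T) (x : V) (w : List α) :
    (run D.stepE ([], x) w).1 = (run D.stepE ([], 0) w).1 ∧
      act D.M (run D.stepE ([], x) w).1 ((run D.stepE ([], x) w).2 - (run D.stepE ([], 0) w).2) =
        act D.M w x := by
  induction w using List.reverseRecOn with
  | nil => exact ⟨rfl, by simp [act_nil]⟩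
  | append_singleton w a ih =>
    rw [run_append, run_append, act_append, ← ih.2, ← act_append]
    generalize run D.stepE ([], x) w = s₁ at ih
    generalize run D.stepE ([], 0) w = s₂ at ih
    obtain ⟨g₁, x₁⟩ := s₁
    obtain ⟨g₂, x₂⟩ := s₂
    obtain ⟨h1, -⟩ := ih
    dsimp only at h1
    subst h1
    simp only [run_cons, run_nil]
    unfold Dt.stepE gstep
    dsimp only
    split_ifs with he
    · refine ⟨rfl, ?_⟩
      dsimp only
      unfold Dt.actE
      rw [act_nil, add_sub_add_right_eq_sub, act_sub]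
    · exact ⟨rfl, rfl⟩

end transfer

theorem height_linear {α V : Type} [Finite α] [Finite V] [AddCommGroup V] (M : α → V →+ V)
    (x : V) (F : Set V) : SH 3 {w | act M w x ∈ F} := by
  classical
  haveI : Inhabited V := ⟨0⟩
  haveI : Fintype V := Fintype.ofFinite V
  haveI : Finite (V →₀ ZMod 2) := Finite.of_equiv _ Finsupp.equivFunOnFinite.symm
  haveI : Fintype (V →₀ ZMod 2) := Fintype.ofFinite _
  obtain ⟨KE, hKE, hE⟩ := lines V (V → V)
  obtain ⟨fE, hfE⟩ := hE (hh KE)
  obtain ⟨K, hK, hIn⟩ := lines (V →₀ ZMod 2) (V → V)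
  obtain ⟨f, hf⟩ := hIn (hI K)
  haveI : Finite {l : List (V → V) // l.length < K} := finite_short
  obtain ⟨S, hS⟩ := exists_offsets KE ((Fin KE → (V → V)) × V)
  obtain ⟨q, U, z, X, hsp⟩ := exists_split (SI (V → V) (V →₀ ZMod 2) K × Bool) S
    (fun ρ => if ρ.2 then 1 else -1) (fun ρ => by split_ifs <;> simp)
  obtain ⟨t, p, t0, tmono, tl, tr, tle, ple, sid⟩ := hS U
  obtain ⟨N, L, B, Um, hN, hsparse, hZ0⟩ := exists_marks α (3 * q * (q + 3))
  let D : Dt α V (SI (V → V) (V →₀ ZMod 2) K × Bool) :=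
    ⟨M, KE, fE, N, Um, q, U, S, t, p, fun ρ => if ρ.2 then 1 else -1, z, X⟩
  have hD : D.Ok := ⟨hKE, hN, hfE, hsparse, hsp, fun ρ => by
    show (if ρ.2 then (1 : ℤ) else -1) = 1 ∨ (if ρ.2 then (1 : ℤ) else -1) = -1
    split_ifs <;> simp, t0, tmono, tl, tr, tle, ple, sid⟩
  have hZ : ∀ g, Pre D.N D.Um D.θ g → g ∈ (Z0 (B + D.θ + 1) L : Set (List α)) :=
    fun g hg => pre_Z0 hZ0 hg
  have hSE := Dt.summ hD (σ := V) (fun H y => H y)
  have hfin : ({s | s.1 = []} : Set (List α × V)).Finite := by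
    refine (Set.finite_range (fun y : V => (([], y) : List α × V))).subset ?_
    rintro ⟨g, y⟩ hs
    exact ⟨y, by rw [show g = [] from hs]⟩
  have key : ∀ (y : V) o, SH 3 {w | True ∧
      (D.phi (run D.stepE ([], y) w).1, (run D.stepE ([], y) w).2) = o} := by
    intro y o
    have h1 := outer_star hSE D.FE {s | s.1 = []} hfin (good1_Zn (α := α) (B + D.θ + 1) L 1)
      (by
        rintro ⟨g, y'⟩ hs o'
        have hg : g = [] := hs
        subst hg
        exact height_two hK f hD (fun _ _ => rfl) hf hZ y' o') ([], y) rfl (by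
        intro w
        obtain ⟨Gs, g, rfl, h2, h3⟩ := decomp (N := D.N) (U := D.Um) hD.θpos w
        exact Dt.outer_fac hD (fun g hg => Zn.one (hZ g hg)) Gs h2 h3 y) o
    exact h1.congr fun w => ⟨fun h => h.2, fun h => ⟨trivial, h⟩⟩
  have fin : ∀ y : V, (Set.range fun w =>
      (D.phi (run D.stepE ([], y) w).1, (run D.stepE ([], y) w).2)).Finite := by
    intro y
    refine hSE.fin.subset ?_
    rintro _ ⟨w, rfl⟩
    exact ⟨_, rfl⟩
  have h := determined (fun _ => True) (fun w => act M w x ∈ F) _ _ (fin x) (fin 0) (key x) (key 0)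
    (by
      intro w w' _ _ h1 h2 h3
      obtain ⟨c1, c2⟩ := Prod.mk.inj h1
      obtain ⟨_, c4⟩ := Prod.mk.inj h2
      have a := (run_diff D x w).2
      have b := (run_diff D x w').2
      rw [Dt.phi_act c1, c2, c4, b] at a
      have a' : act M w' x = act M w x := a
      rw [a']
      exact h3)
  exact h.congr fun w => ⟨fun h => ⟨trivial, h⟩, fun h => h.2⟩

theorem height_regular {α : Type} [Finite α] (L : Language α) (hL : L.IsRegular) : SH 3 L := by
  obtain ⟨σ, _, A, rfl⟩ := hL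
  haveI : Finite (σ →₀ ZMod 2) := Finite.of_equiv _ Finsupp.equivFunOnFinite.symm
  have h := height_linear (α := α) (V := σ →₀ ZMod 2)
    (fun a => Finsupp.mapDomain.addMonoidHom (fun s => A.step s a)) (Finsupp.single A.start 1)
    {v | ∃ s ∈ A.accept, v = Finsupp.single s 1}
  have e : ∀ (w : List α) (s : σ), act (V := σ →₀ ZMod 2)
      (fun a => Finsupp.mapDomain.addMonoidHom (fun s => A.step s a)) w (Finsupp.single s 1) =
        Finsupp.single (A.evalFrom s w) 1 := by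
    intro w
    induction w with
    | nil => intro s; rfl
    | cons a w ih =>
      intro s
      show act _ w (Finsupp.mapDomain (fun s => A.step s a) (Finsupp.single s 1)) = _
      rw [Finsupp.mapDomain_single, ih]
      rfl
  refine h.congr fun w => ?_
  show A.evalFrom A.start w ∈ A.accept ↔ ∃ s ∈ A.accept, _ = Finsupp.single s 1
  rw [e]
  constructor
  · intro h1
    exact ⟨_, h1, rfl⟩
  · rintro ⟨s, h1, h2⟩
    rw [Finsupp.single_left_injective one_ne_zero h2]
    exact h1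

end Vale.Agent.P329Z
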