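import Vale.Agent.P329Z.Base

set_option linter.all false

/-!
Machines which read a word gap by gap.
-/

namespace Vale.Agent.P329Z

section mk

variable {α : Type} {N : ℕ} {U : Set (List α)}

theorem mk_left {u v : List α} {i : ℕ} (h : i ≤ u.length) :
    Mk N U (u ++ v) i ↔ Mk N U u i := by
  unfold Mk
  rw [List.take_append_of_le_length h, List.length_append]
  constructor
  · rintro ⟨h1, _, h3⟩
    exact ⟨h1, h, h3⟩
  · rintro ⟨h1, _, h3⟩
    exact ⟨h1, by omega, h3⟩

theorem mk_right {u v : List α} {i : ℕ} (h : N ≤ i) :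
    Mk N U (u ++ v) (u.length + i) ↔ Mk N U v i := by
  unfold Mk
  have e : ((u ++ v).take (u.length + i)).drop (u.length + i - N) = (v.take i).drop (i - N) := by
    rw [List.take_append, List.take_of_length_le (by omega), Nat.add_sub_cancel_left,
      List.drop_append, List.drop_eq_nil_of_le (by omega), List.nil_append]
    congr 1
    omega
  rw [e, List.length_append]
  constructor
  · rintro ⟨_, h2, h3⟩
    exact ⟨h, by omega, h3⟩
  · rintro ⟨_, h2, h3⟩
    exact ⟨by omega, by omega, h3⟩

/-- marks far enough behind the junction do not depend on the left part -/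
theorem mk_shift {u u' v : List α} {i i' : ℕ} (h : u.length + N ≤ i)
    (e : i + u'.length = i' + u.length) : Mk N U (u ++ v) i ↔ Mk N U (u' ++ v) i' := by
  have e1 : i = u.length + (i - u.length) := by omega
  have e2 : i' = u'.length + (i - u.length) := by omega
  rw [e1, e2, mk_right (by omega), mk_right (by omega)]

theorem mk_take {u : List α} {i j : ℕ} (h : i ≤ j) (hj : j ≤ u.length) :
    Mk N U (u.take j) i ↔ Mk N U u i := by
  conv_rhs => rw [← List.take_append_drop j u]
  rw [mk_left (by rw [List.length_take]; omega)]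

theorem Mk.le {u : List α} {i : ℕ} (h : Mk N U u i) : i ≤ u.length := h.2.1

end mk

section gap

variable {α : Type} (N : ℕ) (U : Set (List α)) (θ : ℕ)

/-- the gap ends here -/
def endg (g : List α) : Prop := θ ≤ g.length ∧ Mk N U g g.length

/-- no mark from `θ` on, except possibly at the end -/
def Pre (g : List α) : Prop := ∀ i, θ ≤ i → i < g.length → ¬ Mk N U g i

/-- an incomplete gap -/
def Inc (g : List α) : Prop := ∀ i, θ ≤ i → ¬ Mk N U g i

/-- a complete gap -/
def Cpl (g : List α) : Prop := IsNxt (Mk N U g) θ g.length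

open Classical in
/-- the machine: it stores the current gap, a complete gap acts on the second component -/
noncomputable def gstep {σ : Type} (A : List α → σ → σ) (s : List α × σ) (a : α) : List α × σ :=
  if endg N U θ (s.1 ++ [a]) then ([], A (s.1 ++ [a]) s.2) else (s.1 ++ [a], s.2)

/-- the events: a gap with the property `R` ends -/
def gev {σ : Type} (R : List α → Prop) (s : List α × σ) (a : α) : Prop :=
  endg N U θ (s.1 ++ [a]) ∧ R (s.1 ++ [a])

variable {N U θ}

theorem Cpl.pre {g : List α} (h : Cpl N U θ g) : Pre N U θ g := h.2.2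

theorem Inc.pre {g : List α} (h : Inc N U θ g) : Pre N U θ g := fun i h1 _ => h i h1

theorem inc_short {g : List α} (h : g.length < θ) : Inc N U θ g :=
  fun i h1 h2 => absurd h2.le (by omega)

theorem Pre.left {u v : List α} (h : Pre N U θ (u ++ v)) : Pre N U θ u := by
  intro i h1 h2 h3
  exact h i h1 (by rw [List.length_append]; omega) ((mk_left h2.le).2 h3)

theorem Pre.right {u v : List α} (h : Pre N U θ (u ++ v)) : Pre N U θ v := by
  intro i h1 h2 h3
  exact h (u.length + i) (by omega) (by rw [List.length_append]; omega) ((mk_right h3.1).2 h3)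

theorem Pre.inc {u v : List α} (h : Pre N U θ (u ++ v)) (hv : v ≠ []) : Inc N U θ u := by
  intro i h1 h3
  have := List.length_pos_iff.2 hv
  have h2 := h3.le
  exact h i h1 (by rw [List.length_append]; omega) ((mk_left h2).2 h3)

theorem Inc.left {u v : List α} (h : Inc N U θ (u ++ v)) : Inc N U θ u := by
  intro i h1 h3
  exact h i h1 ((mk_left h3.le).2 h3)

theorem Inc.not_endg {g : List α} (h : Inc N U θ g) : ¬ endg N U θ g :=
  fun h1 => h _ h1.1 h1.2

theorem Cpl.endg {g : List α} (h : Cpl N U θ g) : endg N U θ g := ⟨h.1, h.2.1⟩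

variable {σ : Type} {A : List α → σ → σ} {R : List α → Prop}

theorem run_inc {g z : List α} (x : σ) (h : Inc N U θ (g ++ z)) :
    run (gstep N U θ A) (g, x) z = (g ++ z, x) ∧
      NoEv (gstep N U θ A) (gev N U θ R) (g, x) z := by
  induction z generalizing g with
  | nil => simp [NoEv]
  | cons a z ih =>
    have e : g ++ a :: z = (g ++ [a]) ++ z := by simp
    rw [e] at h
    have h1 : ¬ endg N U θ (g ++ [a]) := h.left.not_endg
    have h2 : gstep N U θ A (g, x) a = (g ++ [a], x) := by
      unfold gstep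
      rw [if_neg h1]
    rw [run_cons, NoEv, h2, e]
    exact ⟨(ih h).1, fun h3 => h1 h3.1, (ih h).2⟩

theorem run_cpl {g z : List α} (x : σ) (hz : z ≠ []) (h : Cpl N U θ (g ++ z)) :
    run (gstep N U θ A) (g, x) z = ([], A (g ++ z) x) ∧
      (NoEv (gstep N U θ A) (gev N U θ R) (g, x) z ↔ ¬ R (g ++ z)) := by
  obtain ⟨z, a, rfl⟩ : ∃ z' a, z = z' ++ [a] := by
    rcases List.eq_nil_or_concat z with h1 | ⟨z', a, h1⟩
    · exact absurd h1 hz
    · exact ⟨z', a, by simpa using h1⟩
  rw [← List.append_assoc] at h ⊢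
  have h1 : Inc N U θ (g ++ z) := h.pre.inc (by simp)
  have h2 := run_inc (A := A) (R := R) x h1
  have h3 : gstep N U θ A (g ++ z, x) a = ([], A (g ++ z ++ [a]) x) := by
    unfold gstep
    rw [if_pos h.endg]
  rw [run_append, noEv_append, h2.1, run_cons, h3]
  refine ⟨rfl, ?_⟩
  simp only [NoEv, and_true, gev]
  constructor
  · rintro ⟨_, h4⟩ h5
    exact h4 ⟨h.endg, h5⟩
  · intro h4
    exact ⟨h2.2, fun h5 => h4 h5.2⟩

theorem Cpl.ne_nil {g : List α} (hθ : 0 < θ) (h : Cpl N U θ g) : g ≠ [] := by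
  intro h1
  have := h.1
  rw [h1, List.length_nil] at this
  omega

theorem run_gap (hθ : 0 < θ) {G : List α} (x : σ) (h : Cpl N U θ G) :
    run (gstep N U θ A) ([], x) G = ([], A G x) ∧
      (NoEv (gstep N U θ A) (gev N U θ R) ([], x) G ↔ ¬ R G) :=
  run_cpl (g := []) x (h.ne_nil hθ) h

/-- every word is a product of complete gaps and an incomplete gap -/
theorem decomp (hθ : 0 < θ) (w : List α) : ∃ (Gs : List (List α)) (g : List α),
    w = Gs.flatten ++ g ∧ (∀ G ∈ Gs, Cpl N U θ G) ∧ Inc N U θ g := by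
  induction w using List.reverseRecOn with
  | nil => exact ⟨[], [], rfl, by simp, inc_short hθ⟩
  | append_singleton w a ih =>
    obtain ⟨Gs, g, rfl, h1, h2⟩ := ih
    have h3 : Pre N U θ (g ++ [a]) := by
      intro i h4 h5 h6
      rw [List.length_append, List.length_singleton] at h5
      exact h2 i h4 ((mk_left (by omega)).1 h6)
    by_cases h : endg N U θ (g ++ [a])
    · refine ⟨Gs ++ [g ++ [a]], [], by simp, ?_, inc_short hθ⟩
      intro G hG
      rcases List.mem_append.1 hG with h4 | h4
      · exact h1 G h4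
      · rw [List.mem_singleton.1 h4]
        exact ⟨h.1, h.2, h3⟩
    · refine ⟨Gs, g ++ [a], by simp, h1, ?_⟩
      intro i h4 h5
      rcases lt_or_eq_of_le h5.le with h6 | h6
      · exact h3 i h4 h6 h5
      · subst h6
        exact h ⟨h4, h5⟩

/-- the action of a list of complete gaps -/
def acts (A : List α → σ → σ) (Gs : List (List α)) (x : σ) : σ := Gs.foldl (fun x G => A G x) x

theorem run_gaps (hθ : 0 < θ) {Gs : List (List α)} (x : σ) (h : ∀ G ∈ Gs, Cpl N U θ G) :
    run (gstep N U θ A) ([], x) Gs.flatten = ([], acts A Gs x) := by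
  induction Gs generalizing x with
  | nil => rfl
  | cons G Gs ih =>
    rw [List.flatten_cons, run_append,
      (run_gap (R := fun _ => True) hθ x (h G List.mem_cons_self)).1,
      ih _ fun G' hG => h G' (List.mem_cons_of_mem _ hG)]
    rfl

theorem noEv_gaps (hθ : 0 < θ) {Gs : List (List α)} (x : σ) (h : ∀ G ∈ Gs, Cpl N U θ G)
    (hn : NoEv (gstep N U θ A) (gev N U θ R) ([], x) Gs.flatten) : ∀ G ∈ Gs, ¬ R G := by
  induction Gs generalizing x with
  | nil => simp
  | cons G Gs ih =>
    have h1 := run_gap (A := A) (R := R) hθ x (h G List.mem_cons_self)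
    rw [List.flatten_cons, noEv_append, h1.1, h1.2] at hn
    intro G' hG
    rcases List.mem_cons.1 hG with rfl | h2
    · exact hn.1
    · exact ih _ (fun G' hG => h G' (List.mem_cons_of_mem _ hG)) hn.2 G' h2

theorem pre_Z0 {B L : ℕ} (hZ : ∀ u : List α, (∀ i, ¬ Mk N U u i) → u ∈ (Z0 B L : Set (List α)))
    {g : List α} (h : Pre N U θ g) : g ∈ (Z0 (B + θ + 1) L : Set (List α)) := by
  by_cases hl : g.length ≤ θ
  · exact ⟨g, [], [], 0, by omega, by simp, by simp, by simp⟩
  · obtain ⟨g, c, rfl⟩ : ∃ g' c, g = g' ++ [c] := by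
      rcases List.eq_nil_or_concat g with h1 | ⟨z', a, h1⟩
      · rw [h1] at hl; simp at hl
      · exact ⟨z', a, by simpa using h1⟩
    rw [List.length_append, List.length_singleton] at hl
    have h1 : Inc N U θ g := h.inc (by simp)
    have h2 : ∀ i, ¬ Mk N U (g.drop θ) i := by
      intro i h3
      have h4 := (mk_right (u := g.take θ) h3.1).2 h3
      rw [List.take_append_drop, List.length_take] at h4
      exact h1 _ (by omega) h4
    obtain ⟨a, z, b, j, ha, hz, hb, e⟩ := hZ _ h2
    refine ⟨g.take θ ++ a, z, b ++ [c], j, ?_, hz, ?_, ?_⟩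
    · rw [List.length_append, List.length_take]; omega
    · rw [List.length_append, List.length_singleton]; omega
    · conv_lhs => rw [← List.take_append_drop θ g, e]
      simp only [List.append_assoc]

theorem summ_gap [Finite σ] {Y : Type} (φ : List α → Y) (hfin : (Set.range φ).Finite)
    (h1 : ∀ g g' a, φ g = φ g' → φ (g ++ [a]) = φ (g' ++ [a]))
    (h2 : ∀ g g', φ g = φ g' → endg N U θ g → endg N U θ g')
    (h3 : ∀ g g', φ g = φ g' → R g → R g')
    (h4 : ∀ g g', φ g = φ g' → A g = A g') :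
    Summ (gstep N U θ A) (gev N U θ R) (fun s : List α × σ => (φ s.1, s.2)) where
  fin := by
    refine (hfin.prod (Set.finite_univ (α := σ))).subset ?_
    rintro _ ⟨s, rfl⟩
    exact ⟨⟨s.1, rfl⟩, trivial⟩
  stp := by
    rintro ⟨g, x⟩ ⟨g', x'⟩ a h
    obtain ⟨h5, h6⟩ := Prod.mk.inj h
    dsimp only at h5 h6
    subst h6
    have h7 := h1 g g' a h5
    unfold gstep
    dsimp only
    by_cases h8 : endg N U θ (g ++ [a])
    · rw [if_pos h8, if_pos (h2 _ _ h7 h8), h4 _ _ h7]
    · rw [if_neg h8, if_neg (fun h9 => h8 (h2 _ _ h7.symm h9))]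
      dsimp only
      rw [h7]
  evt := by
    rintro ⟨g, x⟩ ⟨g', x'⟩ a h h9
    obtain ⟨h5, h6⟩ := Prod.mk.inj h
    dsimp only at h5 h6
    have h7 := h1 g g' a h5
    exact ⟨h2 _ _ h7 h9.1, h3 _ _ h7 h9.2⟩

theorem gstep_fst {σ' : Type} {A' : List α → σ' → σ'} {s : List α × σ} {s' : List α × σ'}
    (h : s.1 = s'.1) (a : α) : (gstep N U θ A s a).1 = (gstep N U θ A' s' a).1 := by
  unfold gstep
  rw [h]
  split_ifs <;> rfl

theorem noEv_fst {σ' : Type} {A' : List α → σ' → σ'} {s : List α × σ} {s' : List α × σ'}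
    (h : s.1 = s'.1) (w : List α) :
    NoEv (gstep N U θ A) (gev N U θ R) s w ↔ NoEv (gstep N U θ A') (gev N U θ R) s' w := by
  induction w generalizing s s' with
  | nil => simp [NoEv]
  | cons a w ih =>
    rw [NoEv, NoEv, ih (gstep_fst h a)]
    unfold gev
    rw [h]

end gap

section zn

variable {α : Type} {B L : ℕ}

theorem Zn.nil (n : ℕ) : ([] : List α) ∈ (Zn B L n : Set (List α)) :=
  ⟨[], by simp, by simp, rfl⟩

theorem Zn.one {u : List α} (h : u ∈ (Z0 B L : Set (List α))) : u ∈ (Zn B L 1 : Set (List α)) :=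
  ⟨[u], by simp, by simpa using h, by simp⟩

theorem Zn.mono {m n : ℕ} (hmn : m ≤ n) {u : List α} (h : u ∈ (Zn B L m : Set (List α))) :
    u ∈ (Zn B L n : Set (List α)) := by
  obtain ⟨l, h1, h2, h3⟩ := h
  exact ⟨l, h1.trans hmn, h2, h3⟩

theorem Zn.app {m n : ℕ} {u v : List α} (h : u ∈ (Zn B L m : Set (List α)))
    (h' : v ∈ (Zn B L n : Set (List α))) : u ++ v ∈ (Zn B L (m + n) : Set (List α)) := by
  obtain ⟨l, h1, h2, h3⟩ := h
  obtain ⟨l', h1', h2', h3'⟩ := h'
  refine ⟨l ++ l', by rw [List.length_append]; omega, ?_, by rw [List.flatten_append, h3, h3']⟩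
  intro x hx
  rcases List.mem_append.1 hx with h4 | h4
  · exact h2 x h4
  · exact h2' x h4

theorem Zn.flat {l : List (List α)} (h : ∀ v ∈ l, v ∈ (Z0 B L : Set (List α))) :
    l.flatten ∈ (Zn B L l.length : Set (List α)) := ⟨l, le_rfl, h, rfl⟩

end zn

end Vale.Agent.P329Z
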