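import Vale.Agent.P329Z.Base

set_option linter.all false

/-!
The slipping clock.
-/

namespace Vale.Agent.P329Z

variable {Lc q W : ℕ} {P P' : ℕ → Prop} {y y' n n' : ℕ}

theorem back_spec : back Lc P y = Lc ∨ (1 ≤ back Lc P y ∧ P (y - back Lc P y)) := by
  classical
  exact Nat.find_spec (⟨Lc, Or.inl rfl⟩ : ∃ j, j = Lc ∨ (1 ≤ j ∧ P (y - j)))

theorem back_le_of {j : ℕ} (h : j = Lc ∨ (1 ≤ j ∧ P (y - j))) : back Lc P y ≤ j := by
  classical
  exact Nat.find_min' (⟨Lc, Or.inl rfl⟩ : ∃ j, j = Lc ∨ (1 ≤ j ∧ P (y - j))) h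

theorem back_pos (hL : 0 < Lc) : 1 ≤ back Lc P y := by
  rcases back_spec (Lc := Lc) (P := P) (y := y) with h | h
  · omega
  · exact h.1

theorem back_le : back Lc P y ≤ Lc := back_le_of (Or.inl rfl)

theorem back_min {j : ℕ} (h1 : 1 ≤ j) (h2 : j < back Lc P y) : ¬ P (y - j) := fun h =>
  absurd (back_le_of (Lc := Lc) (Or.inr ⟨h1, h⟩)) (not_le.2 h2)

theorem back_mark (h : back Lc P y < Lc) : P (y - back Lc P y) :=
  (back_spec.resolve_left h.ne).2

theorem back_le_back (h : ∀ j, 1 ≤ j → j ≤ Lc → P' (y' - j) → P (y - j)) :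
    back Lc P y ≤ back Lc P' y' := by
  rcases back_spec (Lc := Lc) (P := P') (y := y') with h1 | h1
  · exact back_le_of (Or.inl h1)
  · exact back_le_of (Or.inr ⟨h1.1, h _ h1.1 back_le h1.2⟩)

theorem back_congr (h : ∀ j, 1 ≤ j → j ≤ Lc → (P (y - j) ↔ P' (y' - j))) :
    back Lc P y = back Lc P' y' :=
  le_antisymm (back_le_back fun j h1 h2 => (h j h1 h2).2)
    (back_le_back fun j h1 h2 => (h j h1 h2).1)

theorem psi_big (hq : 0 < q) (hW : 0 < W) {a : ℕ} (ha : W * (q + 1) ≤ a) (β : ZMod q) :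
    psi q W a β = -β := by
  haveI : NeZero q := ⟨hq.ne'⟩
  have h1 : q + 1 ≤ a / W := (Nat.le_div_iff_mul_le hW).2 (by rwa [mul_comm])
  have h2 := ZMod.val_lt ((a : ZMod q) + β)
  unfold psi
  rw [min_eq_left (by omega), ZMod.natCast_zmod_val]
  ring

theorem psi_small (hW : 0 < W) {a : ℕ} (ha : a ≤ W) (β : ZMod q) : psi q W a β = a := by
  have h1 : a / W ≤ 1 := Nat.div_le_of_le_mul (by simpa using ha)
  unfold psi
  rw [show a / W - 1 = 0 by omega]
  simp

/-- shortly before a mark the clock shows the distance to it -/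
theorem Psi_near_next (hq : 0 < q) (hW : 0 < W) (hP : Sparse (W * (q + 3)) P)
    (hy : W * (q + 2) ≤ y) (hn : IsNxt P y n) (h : n ≤ y + W) :
    Psi q W P y n = - ((n - y : ℕ) : ZMod q) := by
  refine psi_big hq hW ?_ _
  have e1 : W * (q + 3) = W * (q + 2) + W := by ring
  have e2 : W * (q + 2) = W * (q + 1) + W := by ring
  by_contra hc
  have h1 : back (W * (q + 2)) P y < W * (q + 2) := by omega
  have h2 : 1 ≤ back (W * (q + 2)) P y := back_pos (by omega)
  have h3 := hn.1
  have := hP _ _ (back_mark h1) hn.2.1 (by omega)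
  omega

/-- shortly after a mark the clock shows the distance from it -/
theorem Psi_near_back (hW : 0 < W) (h : back (W * (q + 2)) P y ≤ W) :
    Psi q W P y n = (back (W * (q + 2)) P y : ZMod q) := psi_small hW h _

theorem back_shift (hL : 0 < Lc) (h1 : y ≤ y') (hy : Lc ≤ y) (h : ∀ i, y ≤ i → i < y' → ¬ P i) :
    back Lc P y' = min Lc (back Lc P y + (y' - y)) := by
  have p1 : 1 ≤ back Lc P y := back_pos hL
  have p2 : 1 ≤ back Lc P y' := back_pos hL
  have l1 : back Lc P y ≤ Lc := back_le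
  have l2 : back Lc P y' ≤ Lc := back_le
  apply le_antisymm
  · refine le_min l2 ?_
    rcases l1.eq_or_lt with h2 | h2
    · omega
    · refine back_le_of (Or.inr ⟨by omega, ?_⟩)
      rw [show y' - (back Lc P y + (y' - y)) = y - back Lc P y by omega]
      exact back_mark h2
  · rcases l2.eq_or_lt with h2 | h2
    · omega
    · have h3 := back_mark h2
      have h4 : y' - back Lc P y' < y := by
        by_contra h4
        exact h _ (not_lt.1 h4) (by omega) h3
      have : back Lc P y ≤ back Lc P y' - (y' - y) := back_le_of (Or.inr ⟨by omega, by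
        rw [show y - (back Lc P y' - (y' - y)) = y' - back Lc P y' by omega]; exact h3⟩)
      omega

/-- the clock slips at most once within distance `W` -/
theorem Psi_step (hq : 0 < q) (hW : 0 < W) (hP : Sparse (W * (q + 3)) P) (hy : W * (q + 2) ≤ y)
    (h1 : y ≤ y') (h2 : y' ≤ y + W) (hn : IsNxt P y n) (hn' : IsNxt P y' n') :
    ∃ e : ℕ, e ≤ 1 ∧ Psi q W P y' n' + (e : ZMod q) = Psi q W P y n + ((y' - y : ℕ) : ZMod q) := by
  have e1 : W * (q + 3) = W * (q + 2) + W := by ring
  have e2 : W * (q + 2) = W * (q + 1) + W := by ring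
  have h0 := hn.1
  rcases le_or_gt y' n with h | h
  · obtain rfl : n = n' := by
      rcases lt_trichotomy n n' with h3 | h3 | h3
      · exact absurd hn.2.1 (hn'.2.2 n h h3)
      · exact h3
      · exact absurd hn'.2.1 (hn.2.2 n' (h1.trans hn'.1) h3)
    have hb := back_shift (Lc := W * (q + 2)) (by omega) h1 hy
      fun i h3 h4 => hn.2.2 i h3 (h4.trans_le h)
    have hβ : ((n - y : ℕ) : ZMod q) = ((n - y' : ℕ) : ZMod q) + ((y' - y : ℕ) : ZMod q) := by
      rw [← Nat.cast_add]; congr 1; omega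
    unfold Psi
    set a := back (W * (q + 2)) P y
    rcases le_or_gt (a + (y' - y)) (W * (q + 2)) with h3 | h3
    · rw [hb, min_eq_right h3]
      have d1 : a / W ≤ (a + (y' - y)) / W := Nat.div_le_div_right (by omega)
      have d2 : (a + (y' - y)) / W ≤ a / W + 1 := by
        rw [← Nat.add_div_right a hW]; exact Nat.div_le_div_right (by omega)
      unfold psi
      rw [show ((a + (y' - y) : ℕ) : ZMod q) + ((n - y' : ℕ) : ZMod q) =
        (a : ZMod q) + ((n - y : ℕ) : ZMod q) by rw [hβ, Nat.cast_add]; ring]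
      set v := ((a : ZMod q) + ((n - y : ℕ) : ZMod q)).val
      obtain ⟨e, he⟩ : ∃ e, min v ((a + (y' - y)) / W - 1) = min v (a / W - 1) + e :=
        Nat.exists_eq_add_of_le (by omega)
      refine ⟨e, by omega, ?_⟩
      rw [he, Nat.cast_add, Nat.cast_add]
      ring
    · rw [hb, min_eq_left h3.le, psi_big hq hW (by omega), psi_big hq hW (by omega), hβ]
      exact ⟨0, zero_le_one, by simp⟩
  · have l1 : back (W * (q + 2)) P y' ≤ y' - n := back_le_of (Or.inr ⟨by omega, by
      rw [show y' - (y' - n) = n by omega]; exact hn.2.1⟩)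
    have hb : back (W * (q + 2)) P y' = y' - n := by
      by_contra hc
      have p1 : 1 ≤ back (W * (q + 2)) P y' := back_pos (by omega)
      have := hP _ _ hn.2.1 (back_mark (Lc := W * (q + 2)) (y := y') (by omega)) (by omega)
      omega
    refine ⟨0, zero_le_one, ?_⟩
    rw [Psi_near_back hW (by omega), Psi_near_next hq hW hP hy hn (by omega), hb,
      show y' - y = (y' - n) + (n - y) by omega, Nat.cast_add]
    simp

end Vale.Agent.P329Z
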