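import Vale.Agent.P329Z.OuterCut
import Mathlib.Data.List.GetD

set_option linter.all false

/-!
The inner machine: it can be cut once in every round of gaps, a clash of types causes an event.
-/

namespace Vale.Agent.P329Z

open Vale.Agent.P329.Clock (Srv)

namespace Dt

variable {α V T : Type} [AddCommGroup V] {D : Dt α V T}

section geom

/-- the gap has room on the side given by the sign `ε` -/
def Side (D : Dt α V T) (G : List α) (ε : ℤ) (η : ℕ) : Prop :=
  η < D.q ∧ (∃ e : ℤ, 0 ≤ e ∧ e ≤ 1 ∧ D.clk G D.θ G.length = ((-ε * η + e : ℤ) : ZMod D.q)) ∧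
    ∀ x x' y : ℕ, x ≤ η → x' < D.q → (y : ℤ) = D.θ + ε * ((x : ℤ) - x') →
      IsNxt (D.P G) y G.length

theorem exists_side (hD : D.Ok) {G : List α} (hG : D.cpl G) :
    ∃ η, D.Side G 1 η ∨ D.Side G (-1) η := by
  haveI : NeZero D.q := ⟨hD.qpos.ne'⟩
  have hq := hD.qpos
  have hW : D.W = 3 * D.q := rfl
  have hθ : D.θ = D.N + D.W * (D.q + 2) + 3 * D.q := rfl
  have hL : D.W * (D.q + 2) = D.W * D.q + 2 * D.W := by ring
  have hL' : D.W * (D.q + 3) = D.W * D.q + 3 * D.W := by ring
  have hGl : D.θ ≤ G.length := hG.1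
  by_cases hb : D.q ≤ back (D.W * (D.q + 2)) (D.P G) D.θ
  · refine ⟨(-D.clk G D.θ G.length).val, Or.inl ⟨ZMod.val_lt _, ⟨0, le_rfl, by norm_num, ?_⟩, ?_⟩⟩
    · push_cast
      rw [ZMod.natCast_zmod_val]
      ring
    · intro x x' y hx hx' hy
      have h1 : D.θ + (-D.clk G D.θ G.length).val ≤ G.length := by
        by_cases h2 : D.θ + D.q ≤ G.length
        · have := ZMod.val_lt (-D.clk G D.θ G.length)
          omega
        · have h3 := Psi_near_next hq hD.Wpos (hD.sparse G) (y := D.θ) (by omega) hG (by omega)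
          unfold clk
          rw [h3, neg_neg, ZMod.val_natCast, Nat.mod_eq_of_lt (by omega)]
          omega
      refine ⟨by omega, hG.2.1, fun i h4 h5 h6 => ?_⟩
      by_cases h7 : D.θ ≤ i
      · exact hG.2.2 i h7 h5 h6
      · refine back_min (Lc := D.W * (D.q + 2)) (P := D.P G) (y := D.θ) (j := D.θ - i)
          (by omega) (by omega) ?_
        have : D.θ - (D.θ - i) = i := by omega
        rw [this]
        exact h6
  · have h1 : 1 ≤ back (D.W * (D.q + 2)) (D.P G) D.θ := back_pos (by omega)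
    refine ⟨back (D.W * (D.q + 2)) (D.P G) D.θ - 1, Or.inr ⟨by omega, ⟨1, by norm_num, le_rfl, ?_⟩,
      ?_⟩⟩
    · unfold clk
      rw [Psi_near_back hD.Wpos (by omega), Nat.cast_sub h1]
      push_cast
      ring
    · intro x x' y hx hx' hy
      have h2 := back_mark (Lc := D.W * (D.q + 2)) (P := D.P G) (y := D.θ) (by omega)
      have h3 := hD.sparse G _ _ h2 hG.2.1 (by omega)
      refine ⟨by omega, hG.2.1, fun i h4 h5 h6 => ?_⟩
      by_cases h7 : D.θ ≤ i
      · exact hG.2.2 i h7 h5 h6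
      · refine back_min (Lc := D.W * (D.q + 2)) (P := D.P G) (y := D.θ) (j := D.θ - i)
          (by omega) (by omega) ?_
        have : D.θ - (D.θ - i) = i := by omega
        rw [this]
        exact h6

/-- the length of the left part of a gap which is cut -/
def len (D : Dt α V T) (ρ : T) (η : ℕ) : ℤ := D.z ρ + D.ε ρ * D.X ρ η

theorem len_bd (hD : D.Ok) (ρ : T) {η : ℕ} (h : η < D.q) : 0 < D.len ρ η ∧ D.len ρ η < 3 * D.q := by
  have h1 := hD.split.zge ρ
  have h2 := hD.split.zlt ρ
  have h3 := hD.split.xle ρ η h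
  unfold len
  rcases hD.eps ρ with h4 | h4 <;> rw [h4] <;> constructor <;> omega

theorem same_type (hD : D.Ok) {g₀ g r : List α} {ρ : T} {η₁ η₂ : ℕ}
    (hS : D.Side (g₀ ++ r) (D.ε ρ) η₁) (h₁ : (g₀.length : ℤ) = D.len ρ η₁) (hη : η₂ < D.q)
    (h₂ : (g.length : ℤ) = D.len ρ η₂) : D.cpl (g ++ r) := by
  have b2 := len_bd hD ρ hη
  have hθ : D.θ = D.N + D.Lc + 3 * D.q := rfl
  have x2 := hD.split.xle ρ η₂ hη
  have hn := hS.2.2 (D.X ρ η₁) (D.X ρ η₂) (D.θ + g₀.length - g.length)
    (hD.split.xle ρ η₁ hS.1) (by omega) (by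
      rw [Nat.cast_sub (by omega)]
      push_cast
      rw [h₁, h₂]
      unfold len
      ring)
  exact nxt_shift hn (by omega) (by omega) (by rw [List.length_append, List.length_append]; omega)

theorem ev_of (hD : D.Ok) {σ : Type} {A : List α → σ → σ} {g v : List α} {n : ℕ} (x : σ)
    (hg : g.length < D.θ) (hn : IsNxt (D.P (g ++ v)) D.θ n) (ho : D.Om (D.clk (g ++ v) D.θ n)) :
    ¬ NoEv (gstep D.N D.Um D.θ A) (D.ev σ) (g, x) v := by
  have h1 : n ≤ (g ++ v).length := hn.2.1.le
  have h2 : D.θ ≤ n := hn.1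
  rw [List.length_append] at h1
  have e : v = v.take (n - g.length) ++ v.drop (n - g.length) := (List.take_append_drop _ _).symm
  have hl : (g ++ v.take (n - g.length)).length = n := by
    rw [List.length_append, List.length_take]; omega
  have e' : g ++ v = (g ++ v.take (n - g.length)) ++ v.drop (n - g.length) := by
    rw [List.append_assoc, ← e]
  rw [e'] at hn ho
  rw [nxt_left hl.ge] at hn
  rw [clk_left (by omega)] at ho
  have hz : v.take (n - g.length) ≠ [] := by
    intro h3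
    rw [h3, List.append_nil] at hl
    omega
  have hc : D.cpl (g ++ v.take (n - g.length)) := by
    unfold cpl Cpl
    rw [hl]
    exact hn
  intro h3
  rw [e, noEv_append] at h3
  refine (run_cpl (A := A) (R := D.Real) x hz hc).2.1 h3.1 ⟨?_, by omega, fun i h4 h5 => by omega⟩
  rw [hl]
  exact ho

theorem diff_type (hD : D.Ok) {σ : Type} {A : List α → σ → σ} {g₀ g r G' w : List α}
    {ρ₁ ρ₂ : T} {η₁ η₂ : ℕ} (x : σ) (hG : D.cpl (g₀ ++ r)) (hG' : D.cpl G')
    (hS : D.Side (g₀ ++ r) (D.ε ρ₁) η₁) (h₁ : (g₀.length : ℤ) = D.len ρ₁ η₁) (hη : η₂ < D.q)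
    (h₂ : (g.length : ℤ) = D.len ρ₂ η₂) (hρ : ρ₁ ≠ ρ₂) :
    ¬ NoEv (gstep D.N D.Um D.θ A) (D.ev σ) (g, x) (r ++ (G' ++ w)) := by
  classical
  have b1 := len_bd hD ρ₁ hS.1
  have b2 := len_bd hD ρ₂ hη
  have hθ : D.θ = D.N + D.W * (D.q + 2) + 3 * D.q := rfl
  have hLc : D.Lc = D.W * (D.q + 2) := rfl
  have hW : D.W = 3 * D.q := rfl
  have hGl : D.θ ≤ (g₀ ++ r).length := hG.1
  have hGl' : D.θ ≤ G'.length := hG'.1
  set y := D.θ + g₀.length - g.length with hy
  set u := g₀ ++ (r ++ (G' ++ w)) with hu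
  have hu' : u = (g₀ ++ r) ++ (G' ++ w) := by rw [hu, List.append_assoc]
  have hex : ∃ n, y ≤ n ∧ D.P u n := by
    refine ⟨(g₀ ++ r).length + G'.length, by omega, ?_⟩
    rw [hu']
    exact (mk_right (by omega)).2 ((mk_left le_rfl).2 hG'.2.1)
  have hn : IsNxt (D.P u) y (Nat.find hex) :=
    ⟨(Nat.find_spec hex).1, (Nat.find_spec hex).2, fun i h3 h4 h5 => Nat.find_min hex h4 ⟨h3, h5⟩⟩
  set n := Nat.find hex with hn0
  have hyn : y ≤ n := hn.1
  have hm : IsNxt (D.P u) D.θ (g₀ ++ r).length := by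
    rw [hu', nxt_left le_rfl]
    exact hG
  have hc : D.clk u D.θ (g₀ ++ r).length = D.clk (g₀ ++ r) D.θ (g₀ ++ r).length := by
    rw [hu', clk_left hGl]
  obtain ⟨e₀, a1, a2, a3⟩ := hS.2.1
  have hyz : (y : ℤ) = D.θ + D.len ρ₁ η₁ - D.len ρ₂ η₂ := by omega
  have hstep : ∃ e : ℤ, -1 ≤ e ∧ e ≤ 1 ∧
      D.clk u y n = D.clk u D.θ (g₀ ++ r).length + (((y : ℤ) - D.θ + e : ℤ) : ZMod D.q) := by
    by_cases hle : D.θ ≤ y
    · obtain ⟨e, he, hs⟩ := Psi_step hD.qpos hD.Wpos (hD.sparse u) (by omega) hle (by omega) hm hn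
      refine ⟨-e, by omega, by omega, ?_⟩
      rw [Nat.cast_sub hle] at hs
      unfold clk
      push_cast
      linear_combination hs
    · obtain ⟨e, he, hs⟩ := Psi_step hD.qpos hD.Wpos (hD.sparse u) (y := y) (y' := D.θ) (by omega)
        (by omega) (by omega) hn hm
      refine ⟨e, by omega, by omega, ?_⟩
      rw [Nat.cast_sub (by omega)] at hs
      unfold clk
      push_cast
      linear_combination -hs
  obtain ⟨e, c1, c2, c3⟩ := hstep
  refine ev_of hD x (n := n + g.length - g₀.length) (by omega)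
    (nxt_shift hn (by omega) (by omega) (by omega)) ?_
  rw [clk_shift (u := g₀) (y := y) (n := n) (by omega) (by omega) (by omega)]
  refine ⟨ρ₁, ρ₂, η₁, η₂, e₀ + e, hρ, hS.1, hη, by rw [abs_le]; constructor <;> omega, ?_⟩
  rw [← hu, c3, hc, a3, hyz, ← Int.cast_add]
  congr 1
  unfold len cross
  ring

end geom

end Dt

section rounds

variable {M Y : Type} [Inhabited M] [AddCommGroup Y] {K : ℕ}

/-- the states of the inner machine between two gaps -/
abbrev SI (M Y : Type) (K : ℕ) : Type := {l : List M // l.length < K} × Y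

theorem finite_short [Finite M] : Finite {l : List M // l.length < K} :=
  (List.finite_length_lt M K).to_subtype

def toF (K : ℕ) (l : List M) : Fin K → M := fun i => l.getD i default

theorem toF_update {l₁ l₂ : List M} {k : Fin K} (hk : l₁.length = k) (a b : M) :
    toF K (l₁ ++ b :: l₂) = Function.update (toF K (l₁ ++ a :: l₂)) k b := by
  funext i
  unfold toF
  rcases lt_trichotomy (i : ℕ) k with h | h | h
  · rw [Function.update_of_ne (fun h' => by rw [h'] at h; exact lt_irrefl _ h),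
      List.getD_append _ _ _ _ (by omega), List.getD_append _ _ _ _ (by omega)]
  · rw [Fin.ext h, Function.update_self, List.getD_append_right _ _ _ _ (by omega), ← hk,
      Nat.sub_self]
    rfl
  · rw [Function.update_of_ne (fun h' => by rw [h'] at h; exact lt_irrefl _ h),
      List.getD_append_right _ _ _ _ (by omega), List.getD_append_right _ _ _ _ (by omega)]
    obtain ⟨j, hj⟩ : ∃ j, (i : ℕ) - l₁.length = j + 1 := ⟨i - l₁.length - 1, by omega⟩
    rw [hj]
    rfl

variable (hK : 0 < K) (h : (Fin K → M) → Y → Y) (f : (Fin K → M) → Y)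

/-- the state at the start of a round -/
def st0 (y : Y) : SI M Y K := (⟨[], hK⟩, y)

/-- the action of a gap on the states of the inner machine -/
def upd (a : M) (s : SI M Y K) : SI M Y K :=
  if hl : (s.1.1 ++ [a]).length < K then (⟨s.1.1 ++ [a], hl⟩, s.2)
  else st0 hK (h (toF K (s.1.1 ++ [a])) s.2 + f (toF K (s.1.1 ++ [a])))

theorem upd_fill (l : List M) (s : SI M Y K) (hl : (s.1.1 ++ l).length < K) :
    l.foldl (fun x a => upd hK h f a x) s = (⟨s.1.1 ++ l, hl⟩, s.2) := by
  induction l generalizing s with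
  | nil => simp
  | cons a l ih =>
    have h1 : (s.1.1 ++ [a]).length < K := by
      simp only [List.length_append, List.length_cons, List.length_nil] at hl ⊢
      omega
    have h2 : upd hK h f a s = (⟨s.1.1 ++ [a], h1⟩, s.2) := by
      unfold upd
      rw [dif_pos h1]
    rw [List.foldl_cons, h2, ih _ (by simpa using hl)]
    simp

theorem upd_round (l : List M) (s : SI M Y K) (hl : (s.1.1 ++ l).length = K) :
    l.foldl (fun x a => upd hK h f a x) s =
      st0 hK (h (toF K (s.1.1 ++ l)) s.2 + f (toF K (s.1.1 ++ l))) := by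
  rcases List.eq_nil_or_concat l with h1 | ⟨l', a, h1⟩
  · exfalso
    have := s.1.2
    rw [h1, List.append_nil] at hl
    omega
  · rw [List.concat_eq_append] at h1
    subst h1
    have h2 : (s.1.1 ++ l').length < K := by
      simp only [List.length_append, List.length_cons, List.length_nil] at hl ⊢
      omega
    rw [List.foldl_append, upd_fill hK h f l' s h2, List.foldl_cons, List.foldl_nil]
    unfold upd
    rw [dif_neg (by
      simp only [List.length_append, List.length_cons, List.length_nil] at hl ⊢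
      omega)]
    simp only [List.append_assoc]

end rounds

namespace Dt

variable {α V Y : Type} [AddCommGroup V] [Inhabited V] [AddCommGroup Y] {K : ℕ}
  (D : Dt α V (SI (V → V) Y K × Bool)) (hK : 0 < K) (h : (Fin K → (V → V)) → Y → Y)
  (f : (Fin K → (V → V)) → Y)

/-- the inner machine -/
noncomputable abbrev stepI : List α × SI (V → V) Y K → α → List α × SI (V → V) Y K :=
  gstep D.N D.Um D.θ (fun G => upd hK h f (D.actE G))

/-- the states at the cuts of the inner machine -/
def FI : Set (List α × SI (V → V) Y K) :=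
  {s | ∃ (b : Bool) (η : ℕ), η < D.q ∧ (s.1.length : ℤ) = D.len (s.2, b) η}

variable {D}

theorem acts_eq (Gs : List (List α)) (s : SI (V → V) Y K) :
    acts (fun G => upd hK h f (D.actE G)) Gs s =
      (Gs.map D.actE).foldl (fun x a => upd hK h f a x) s := by
  unfold acts
  rw [List.foldl_map]

theorem run_round (hD : D.Ok) {R : List (List α)} (hR : ∀ G ∈ R, D.cpl G) (hl : R.length = K)
    (y : Y) : run (D.stepI hK h f) ([], st0 hK y) R.flatten =
      ([], st0 hK (h (toF K (R.map D.actE)) y + f (toF K (R.map D.actE)))) := by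
  rw [run_gaps hD.θpos _ hR, acts_eq, upd_round hK h f _ _ (by simpa [st0] using hl)]
  rfl

/-- a round is cut -/
theorem cut_round (hD : D.Ok) (hε : ∀ s b, D.ε (s, b) = if b then 1 else -1)
    (hf : ∀ a y, ∃ k, Srv h k a y f) {B L : ℕ}
    (hZ : ∀ g, Pre D.N D.Um D.θ g → g ∈ (Z0 B L : Set (List α)))
    {R : List (List α)} (hR : ∀ G ∈ R, D.cpl G) (hl : R.length = K) (y : Y) :
    ∃ p v, R.flatten = p ++ v ∧ p ∈ (Zn B L K : Set (List α)) ∧ v ∈ (Zn B L K : Set (List α)) ∧
      run (D.stepI hK h f) ([], st0 hK y) p ∈ D.FI ∧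
      ∀ G' w, D.cpl G' → ∀ s ∈ D.FI, NoEv (D.stepI hK h f) (D.ev _) s (v ++ (G' ++ w)) →
        run (D.stepI hK h f) s v = run (D.stepI hK h f) ([], st0 hK y) R.flatten := by
  obtain ⟨k, hk⟩ := hf (toF K (R.map D.actE)) y
  have hkK := k.2
  obtain ⟨R₁, G, R₂, rfl, hR₁⟩ : ∃ (R₁ : List (List α)) (G : List α) (R₂ : List (List α)),
      R = R₁ ++ G :: R₂ ∧ R₁.length = (k : ℕ) := by
    refine ⟨R.take k, R[(k : ℕ)]'(by omega), R.drop (k + 1), ?_, by rw [List.length_take]; omega⟩
    rw [List.getElem_cons_drop, List.take_append_drop]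
  have hG : D.cpl G := hR G (by simp)
  have hc₁ : ∀ G' ∈ R₁, D.cpl G' := fun G' h => hR G' (by simp [h])
  have hc₂ : ∀ G' ∈ R₂, D.cpl G' := fun G' h => hR G' (by simp [h])
  have hlen : R₁.length + R₂.length + 1 = K := by
    rw [List.length_append, List.length_cons] at hl
    omega
  have hl₁ : (([] : List (V → V)) ++ R₁.map D.actE).length < K := by
    rw [List.nil_append, List.length_map]
    omega
  set σ₁ : SI (V → V) Y K := (⟨[] ++ R₁.map D.actE, hl₁⟩, y) with hσ₁
  have hrun₁ : run (D.stepI hK h f) ([], st0 hK y) R₁.flatten = ([], σ₁) := by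
    rw [run_gaps hD.θpos _ hc₁, acts_eq, upd_fill hK h f _ _ hl₁]
    rfl
  obtain ⟨b, η, hS⟩ : ∃ b η, D.Side G (D.ε (σ₁, b)) η := by
    obtain ⟨η, h1 | h1⟩ := exists_side hD hG
    · exact ⟨true, η, by rw [hε]; exact h1⟩
    · exact ⟨false, η, by rw [hε]; exact h1⟩
  have b1 := len_bd hD (σ₁, b) hS.1
  have hθ : D.θ = D.N + D.Lc + 3 * D.q := rfl
  have hGl : D.θ ≤ G.length := hG.1
  obtain ⟨g₀, r, rfl, hg₀⟩ : ∃ g₀ r, G = g₀ ++ r ∧ (g₀.length : ℤ) = D.len (σ₁, b) η := by
    refine ⟨G.take (D.len (σ₁, b) η).toNat, G.drop (D.len (σ₁, b) η).toNat,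
      (List.take_append_drop _ _).symm, ?_⟩
    rw [List.length_take]
    omega
  have hr : r ≠ [] := by
    intro h1
    rw [h1, List.append_nil] at hGl
    omega
  refine ⟨R₁.flatten ++ g₀, r ++ R₂.flatten, by simp, ?_, ?_, ?_, ?_⟩
  · exact Zn.mono (by omega)
      (Zn.app (Zn.flat fun G' h => hZ _ (hc₁ G' h).pre) (Zn.one (hZ _ hG.pre.left)))
  · exact Zn.mono (by omega)
      (Zn.app (Zn.one (hZ _ hG.pre.right)) (Zn.flat fun G' h => hZ _ (hc₂ G' h).pre))
  · rw [run_append, hrun₁, (run_inc (R := D.Real) (g := []) σ₁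
      (inc_short (by rw [List.nil_append]; omega))).1]
    exact ⟨b, η, hS.1, hg₀⟩
  · rintro G' w hG' ⟨g, σ₂⟩ ⟨b₂, η₂, hη₂, hg⟩ hne
    dsimp only at hg
    have hρ : (σ₁, b) = (σ₂, b₂) := by
      by_contra hρ
      obtain ⟨G'', w', hG'', e⟩ : ∃ G'' w', D.cpl G'' ∧ R₂.flatten ++ (G' ++ w) = G'' ++ w' := by
        cases R₂ with
        | nil => exact ⟨G', w, hG', rfl⟩
        | cons G'' R₃ => exact ⟨G'', R₃.flatten ++ (G' ++ w), hc₂ G'' (by simp), by simp⟩
      rw [List.append_assoc, e] at hne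
      exact diff_type hD σ₂ hG hG'' hS hg₀ hη₂ hg hρ hne
    obtain ⟨rfl, rfl⟩ := Prod.mk.inj hρ
    have hc := same_type hD hS hg₀ hη₂ hg
    rw [run_round hK h f hD hR hl, run_append, (run_cpl (R := D.Real) σ₁ hr hc).1,
      run_gaps hD.θpos _ hc₂, acts_eq]
    have e : (R₂.map D.actE).foldl (fun x a => upd hK h f a x) (upd hK h f (D.actE (g ++ r)) σ₁) =
        (D.actE (g ++ r) :: R₂.map D.actE).foldl (fun x a => upd hK h f a x) σ₁ := rfl
    rw [e, upd_round hK h f _ _ (by
      simp only [hσ₁, List.nil_append, List.length_append, List.length_cons, List.length_map]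
      omega)]
    simp only [hσ₁, List.nil_append]
    rw [toF_update (k := k) (by rw [List.length_map]; exact hR₁) (D.actE (g₀ ++ r))]
    rw [List.map_append, List.map_cons] at hk ⊢
    rw [hk]

theorem inner_fac (hD : D.Ok) (hε : ∀ s b, D.ε (s, b) = if b then 1 else -1)
    (hf : ∀ a y, ∃ k, Srv h k a y f) {B L : ℕ}
    (hZ : ∀ g, Pre D.N D.Um D.θ g → g ∈ (Z0 B L : Set (List α))) {g : List α} (hg : D.inc g)
    (n : ℕ) : ∀ (Gs : List (List α)), Gs.length ≤ n → (∀ G ∈ Gs, D.cpl G) → ∀ y : Y,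
      Gs.flatten ++ g ∈ (Zn B L (K + 1) : Set (List α)) ∨ ∃ p v, Gs.flatten ++ g = p ++ v ∧
        p ∈ (Zn B L K : Set (List α)) ∧ run (D.stepI hK h f) ([], st0 hK y) p ∈ D.FI ∧
        IChain (D.stepI hK h f) (D.ev _) D.FI (Zn B L (3 * K + 1))
          (run (D.stepI hK h f) ([], st0 hK y) (Gs.flatten ++ g)) v := by
  have short : ∀ Gs : List (List α), Gs.length ≤ K → (∀ G ∈ Gs, D.cpl G) →
      Gs.flatten ++ g ∈ (Zn B L (K + 1) : Set (List α)) := fun Gs h1 h2 =>
    Zn.app (Zn.mono h1 (Zn.flat fun G' h => hZ _ (h2 G' h).pre)) (Zn.one (hZ _ hg.pre))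
  induction n with
  | zero => exact fun Gs h1 h2 _ => Or.inl (short Gs (by omega) h2)
  | succ n ih =>
    intro Gs h1 h2 y
    by_cases h3 : Gs.length ≤ K
    · exact Or.inl (short Gs h3 h2)
    right
    obtain ⟨R, G', Gs₁, rfl, hR⟩ : ∃ R G' Gs₁, Gs = R ++ G' :: Gs₁ ∧ R.length = K := by
      refine ⟨Gs.take K, Gs[K]'(by omega), Gs.drop (K + 1), ?_, by rw [List.length_take]; omega⟩
      rw [List.getElem_cons_drop, List.take_append_drop]
    have hcR : ∀ G ∈ R, D.cpl G := fun G h => h2 G (by simp [h])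
    have hc₁ : ∀ G ∈ G' :: Gs₁, D.cpl G := fun G h => h2 G (List.mem_append_right _ h)
    have hG' : D.cpl G' := hc₁ G' List.mem_cons_self
    obtain ⟨p, v, e, hp, hv, hF, hJ⟩ := cut_round hK h f hD hε hf hZ hcR hR y
    have last : (G' :: Gs₁).flatten ++ g ∈ (Zn B L (2 * K + 1) : Set (List α)) →
        IChain (D.stepI hK h f) (D.ev _) D.FI (Zn B L (3 * K + 1))
          (run (D.stepI hK h f) ([], st0 hK y) ((R ++ G' :: Gs₁).flatten ++ g))
          (v ++ ((G' :: Gs₁).flatten ++ g)) := by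
      intro h4
      refine IChain.last _ (Zn.mono (by omega) (Zn.app hv h4)) fun s hs hn => ?_
      rw [List.flatten_cons, List.append_assoc] at hn
      rw [run_append, hJ G' _ hG' s hs hn, List.flatten_append, List.append_assoc,
        run_append _ _ R.flatten]
    refine ⟨p, v ++ ((G' :: Gs₁).flatten ++ g), by
      rw [List.flatten_append, e]; simp only [List.append_assoc], hp, hF, ?_⟩
    by_cases h4 : (G' :: Gs₁).length ≤ K
    · exact last (Zn.mono (by omega) (short _ h4 hc₁))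
    obtain ⟨R', Gs₂, e', hR'⟩ : ∃ R' Gs₂, Gs₁ = R' ++ Gs₂ ∧ (G' :: R').length = K := by
      refine ⟨Gs₁.take (K - 1), Gs₁.drop (K - 1), (List.take_append_drop _ _).symm, ?_⟩
      rw [List.length_cons] at h4 ⊢
      rw [List.length_take]
      omega
    subst e'
    have hcR' : ∀ G ∈ G' :: R', D.cpl G := fun G h => hc₁ G (by
      rw [← List.cons_append]; exact List.mem_append_left _ h)
    have hc₂ : ∀ G ∈ Gs₂, D.cpl G := fun G h => hc₁ G (by simp [h])
    have hR'Z : (G' :: R').flatten ∈ (Zn B L K : Set (List α)) :=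
      Zn.mono hR'.le (Zn.flat fun G h => hZ _ (hcR' G h).pre)
    have e2 : (G' :: (R' ++ Gs₂)).flatten ++ g = (G' :: R').flatten ++ (Gs₂.flatten ++ g) := by
      simp
    have r1 := run_round hK h f hD hcR hR y
    have r2 := run_round hK h f hD hcR' hR'
      (h (toF K (R.map D.actE)) y + f (toF K (R.map D.actE)))
    set y₂ := h (toF K ((G' :: R').map D.actE))
      (h (toF K (R.map D.actE)) y + f (toF K (R.map D.actE))) +
        f (toF K ((G' :: R').map D.actE)) with hy₂
    rcases ih Gs₂ (by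
      simp only [List.length_append, List.length_cons] at h1 hR' ⊢
      omega) hc₂ y₂ with h5 | ⟨p', v', h5, h6, h7, h8⟩
    · refine last ?_
      rw [e2]
      exact Zn.mono (by omega) (Zn.app hR'Z h5)
    · have e3 : run (D.stepI hK h f) ([], st0 hK y) ((R ++ G' :: (R' ++ Gs₂)).flatten ++ g) =
          run (D.stepI hK h f) ([], st0 hK y₂) (Gs₂.flatten ++ g) := by
        rw [List.flatten_append, List.append_assoc, run_append, r1, e2, run_append, r2]
      rw [e3, e2, h5]
      have e4 : v ++ ((G' :: R').flatten ++ (p' ++ v')) = (v ++ ((G' :: R').flatten ++ p')) ++ v' := by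
        simp only [List.append_assoc]
      rw [e4]
      rw [h5] at h8
      refine IChain.cons _ _ (Zn.mono (by omega) (Zn.app hv (Zn.app hR'Z h6))) ?_ h8
      intro s hs hn
      have hn' := hn
      rw [List.flatten_cons, List.append_assoc] at hn'
      rw [run_append, hJ G' _ hG' s hs hn', r1, run_append, r2]
      exact h7

end Dt

end Vale.Agent.P329Z
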