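import Vale.Agent.P329Z.Gap
import Vale.Agent.P329Z.Geom
import Vale.Agent.P329.Clock.Local

set_option linter.all false

/-!
The outer machine: it can be cut inside the gaps which end with an event.
-/

namespace Vale.Agent.P329Z

open Vale.Agent.P329.Clock (Srv)

section act

variable {α V : Type} [AddCommGroup V] (M : α → V →+ V)

/-- the action of a word -/
def act (w : List α) (v : V) : V := w.foldl (fun v a => M a v) v

theorem act_nil (v : V) : act M [] v = v := rfl

theorem act_append (u w : List α) (v : V) : act M (u ++ w) v = act M w (act M u v) :=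
  List.foldl_append

theorem act_sub (w : List α) (v v' : V) : act M w (v - v') = act M w v - act M w v' := by
  induction w generalizing v v' with
  | nil => rfl
  | cons a w ih =>
    show act M w (M a (v - v')) = act M w (M a v) - act M w (M a v')
    rw [map_sub, ih]

/-- the segment number `j` of a gap whose first `c` letters are missing -/
def piece (t : ℕ → ℕ) (K c j : ℕ) (x : List α) : List α :=
  if j + 1 < K then (x.take (t (j + 1) - c)).drop (t j - c) else x.drop (t j - c)

/-- the actions of the segments -/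
def dat (t : ℕ → ℕ) (K : ℕ) (x : List α) : Fin K → (V → V) := fun j => act M (piece t K 0 j x)

end act

section comp

variable {V : Type}

/-- composition -/
def cmp (f : ℕ → V → V) : ℕ → V → V
  | 0, y => y
  | j + 1, y => f j (cmp f j y)

/-- composition of data -/
def hh (K : ℕ) (a : Fin K → (V → V)) (y : V) : V :=
  cmp (fun j => if h : j < K then a ⟨j, h⟩ else id) K y

end comp

section seg

variable {α V : Type} [AddCommGroup V] (M : α → V →+ V)

theorem hh_dat {t : ℕ → ℕ} {K : ℕ} (hK : 0 < K) (h0 : t 0 = 0)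
    (ht : ∀ j, j + 1 < K → t j ≤ t (j + 1)) (x : List α) (y : V) :
    hh K (dat M t K x) y = act M x y := by
  have h : ∀ j < K, cmp (fun j => if h : j < K then dat M t K x ⟨j, h⟩ else id) j y =
      act M (x.take (t j)) y := by
    intro j
    induction j with
    | zero => intro _; rw [h0, List.take_zero]; rfl
    | succ j ih =>
      intro hj
      show (if h : j < K then dat M t K x ⟨j, h⟩ else id) (cmp _ j y) = _
      rw [ih (by omega), dif_pos (by omega : j < K)]
      show act M (piece t K 0 j x) _ = _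
      rw [← act_append]
      congr 1
      unfold piece
      rw [if_pos hj, Nat.sub_zero, Nat.sub_zero]
      have h1 : x.take (t j) = (x.take (t (j + 1))).take (t j) := by
        rw [List.take_take, min_eq_left (ht j hj)]
      rw [h1]
      exact List.take_append_drop _ _
  obtain ⟨k, rfl⟩ : ∃ k, K = k + 1 := ⟨K - 1, by omega⟩
  unfold hh
  show (if h : k < k + 1 then dat M t (k + 1) x ⟨k, h⟩ else id) (cmp _ k y) = _
  rw [h k (by omega), dif_pos (by omega : k < k + 1)]
  show act M (piece t (k + 1) 0 k x) _ = _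
  rw [← act_append]
  congr 1
  unfold piece
  rw [if_neg (lt_irrefl _), Nat.sub_zero]
  exact List.take_append_drop _ _

theorem piece_left {t : ℕ → ℕ} {K j : ℕ} {g z : List α} (hj : j + 1 < K)
    (h : t (j + 1) ≤ g.length) : piece t K 0 j (g ++ z) = piece t K 0 j g := by
  unfold piece
  rw [if_pos hj, if_pos hj, List.take_append_of_le_length (by omega)]

theorem piece_right {t : ℕ → ℕ} {K j : ℕ} {g z : List α} (h : g.length ≤ t j) :
    piece t K 0 j (g ++ z) = piece t K g.length j z := by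
  unfold piece
  split_ifs with hj
  · rw [List.drop_take, List.drop_take, List.drop_append, List.drop_eq_nil_of_le (by omega),
      List.nil_append]
    congr 1
    omega
  · rw [List.drop_append, List.drop_eq_nil_of_le (by omega), List.nil_append, Nat.sub_zero]

end seg

/-- the kinds of cuts of the outer machine -/
abbrev Rul (V : Type) (K : ℕ) : Type := Fin K × ((Fin K → (V → V)) × V)

/-- the parameters -/
structure Dt (α V T : Type) [AddCommGroup V] where
  M : α → V →+ V
  K : ℕ
  f : (Fin K → (V → V)) → V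
  N : ℕ
  Um : Set (List α)
  q : ℕ
  U : ℕ
  S : ℕ
  t : ℕ → ℕ
  p : Rul V K → ℕ
  ε : T → ℤ
  z : T → ℕ
  X : T → ℕ → ℕ

namespace Dt

variable {α V T : Type} [AddCommGroup V] (D : Dt α V T)

def W : ℕ := 3 * D.q

def Lc : ℕ := D.W * (D.q + 2)

def θ : ℕ := D.N + D.Lc + D.W

def Θ : ℕ := D.θ + D.W

/-- the marks -/
abbrev P (u : List α) : ℕ → Prop := Mk D.N D.Um u

/-- the clock -/
noncomputable abbrev clk (u : List α) (y n : ℕ) : ZMod D.q := Psi D.q D.W (D.P u) y n

abbrev cpl (g : List α) : Prop := Cpl D.N D.Um D.θ g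

abbrev inc (g : List α) : Prop := Inc D.N D.Um D.θ g

/-- the conditions on the parameters -/
structure Ok : Prop where
  Kpos : 0 < D.K
  Npos : 0 < D.N
  srv : ∀ a y, ∃ k, Srv (hh D.K) k a y D.f
  sparse : ∀ u, Sparse (D.W * (D.q + 3)) (D.P u)
  split : Split D.S D.ε D.q D.U D.z D.X
  eps : ∀ ρ, D.ε ρ = 1 ∨ D.ε ρ = -1
  t0 : D.t 0 = 0
  tmono : ∀ j, j + 1 < D.K → D.t j ≤ D.t (j + 1)
  tl : ∀ (r : Rul V D.K) (j : ℕ), j < r.1 → D.t (j + 1) ≤ D.p r
  tr : ∀ (r : Rul V D.K) (j : ℕ), (r.1 : ℕ) < j → j < D.K → D.p r ≤ D.t j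
  tle : ∀ j < D.K, D.t j ≤ D.S * D.U
  ple : ∀ r, D.p r ≤ D.S * D.U
  sid : ∀ r r' s s', (r = r' ∧ s = s') ∨ (r = s ∧ r' = s') ∨
    ∃ c : ℤ, 16 ≤ |c| ∧ |c| ≤ D.S ∧ (D.p r : ℤ) - D.p r' - D.p s + D.p s' = c * D.U

/-- the phases which signal a clash of types -/
def Om (x : ZMod D.q) : Prop :=
  ∃ (ρ₁ ρ₂ : T) (η₁ η₂ : ℕ) (e : ℤ), ρ₁ ≠ ρ₂ ∧ η₁ < D.q ∧ η₂ < D.q ∧ |e| ≤ 2 ∧
    x = ((cross D.ε D.z D.X ρ₁ η₁ ρ₂ η₂ + e : ℤ) : ZMod D.q)

/-- the clock shows such a phase at `y` -/
def AccAt (G : List α) (y : ℕ) : Prop :=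
  D.Om (D.clk G y G.length) ∧ y ≤ G.length ∧ ∀ i, y ≤ i → i < D.θ → ¬ D.P G i

/-- the gaps which end with an event -/
def Real (G : List α) : Prop := D.AccAt G D.θ

def Left (g : List α) (r : Rul V D.K) : Prop :=
  ∀ j : Fin D.K, (j : ℕ) < r.1 → dat D.M D.t D.K g j = r.2.1 j

def Right (x : List α) (r : Rul V D.K) : Prop :=
  ∀ j : Fin D.K, (r.1 : ℕ) < j → act D.M (piece D.t D.K (D.p r) j x) = r.2.1 j

def out (r : Rul V D.K) : V := hh D.K r.2.1 r.2.2 + D.f r.2.1

/-- the gap is asked to send `y` to `o` -/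
def Demand (G : List α) (y o : V) : Prop :=
  ∃ r r' : Rul V D.K, D.AccAt G (D.θ + D.p r - D.p r') ∧ D.Left G r ∧
    D.Right (G.drop (D.p r)) r' ∧ Srv (hh D.K) r'.1 r'.2.1 r'.2.2 D.f ∧ y = r.2.2 ∧ o = D.out r'

open Classical in
noncomputable def tau' (R : Prop) (a : Fin D.K → (V → V)) (Dm : V → V → Prop) (m : V → V) : V :=
  if R then D.f a else if h : ∃ x : V × V, Dm x.1 x.2 then h.choose.2 - m h.choose.1 else 0

/-- the translation at the end of a gap -/
noncomputable def tau (G : List α) : V :=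
  D.tau' (D.Real G) (dat D.M D.t D.K G) (D.Demand G) (act D.M G)

/-- the action of a complete gap -/
noncomputable def actE (G : List α) (x : V) : V := act D.M G x + D.tau G

/-- the summary of a gap -/
def phi (g : List α) : List α × (Fin (D.Θ + 1) → V → V) × ZMod D.q × List α :=
  (g.take D.Θ, fun i => act D.M (g.drop i), (g.length : ZMod D.q), g.drop (g.length - D.N))

variable {D}

theorem Ok.qpos (h : D.Ok) : 0 < D.q := by
  have := h.split.ult
  omega

theorem Ok.Wpos (h : D.Ok) : 0 < D.W := by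
  have := h.qpos
  unfold W
  omega

theorem Ok.θpos (h : D.Ok) : 0 < D.θ := by
  have := h.Wpos
  unfold θ
  omega

theorem Ok.plt (h : D.Ok) (r : Rul V D.K) : D.p r < D.q := (h.ple r).trans_lt h.split.ult

theorem Ok.tlt (h : D.Ok) {j : ℕ} (hj : j < D.K) : D.t j < D.q := (h.tle j hj).trans_lt h.split.ult

section summary

/-- two long words with the same summary -/
structure Far (D : Dt α V T) (g g' : List α) : Prop where
  l1 : D.Θ ≤ g.length
  l2 : D.Θ ≤ g'.length
  tk : g.take D.Θ = g'.take D.Θ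
  dr : ∀ i ≤ D.Θ, act D.M (g.drop i) = act D.M (g'.drop i)
  ln : (g.length : ZMod D.q) = (g'.length : ZMod D.q)
  la : g.drop (g.length - D.N) = g'.drop (g'.length - D.N)

theorem phi_cases {g g' : List α} (h : D.phi g = D.phi g') : g = g' ∨ D.Far g g' := by
  unfold phi at h
  simp only [Prod.mk.injEq] at h
  obtain ⟨h1, h2, h3, h4⟩ := h
  have h5 := congrArg List.length h1
  rw [List.length_take, List.length_take] at h5
  by_cases hl : D.Θ ≤ g.length
  · right
    exact ⟨hl, by omega, h1, fun i hi => congrFun h2 ⟨i, by omega⟩, h3, h4⟩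
  · left
    rw [List.take_of_length_le (by omega), List.take_of_length_le (by omega)] at h1
    exact h1

theorem Far.phi {g g' : List α} (h : D.Far g g') : D.phi g = D.phi g' := by
  unfold Dt.phi
  simp only [Prod.mk.injEq]
  exact ⟨h.tk, funext fun i => h.dr i (by omega), h.ln, h.la⟩

theorem Far.symm {g g' : List α} (h : D.Far g g') : D.Far g' g :=
  ⟨h.l2, h.l1, h.tk.symm, fun i hi => (h.dr i hi).symm, h.ln.symm, h.la.symm⟩

theorem Far.snoc (hD : D.Ok) {g g' : List α} (h : D.Far g g') (a : α) :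
    D.Far (g ++ [a]) (g' ++ [a]) := by
  have l1 := h.l1
  have l2 := h.l2
  have hN := hD.Npos
  have hΘ : D.N ≤ D.Θ := by unfold Θ θ; omega
  have key : ∀ x : List α, D.N ≤ x.length →
      (x ++ [a]).drop ((x ++ [a]).length - D.N) = (x.drop (x.length - D.N) ++ [a]).drop 1 := by
    intro x hx
    rw [List.length_append, List.length_singleton, List.drop_append_of_le_length (by omega),
      List.drop_append_of_le_length (by rw [List.length_drop]; omega), List.drop_drop]
    congr 2
    omega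
  refine ⟨by rw [List.length_append]; omega, by rw [List.length_append]; omega, ?_, ?_, ?_, ?_⟩
  · rw [List.take_append_of_le_length l1, List.take_append_of_le_length l2, h.tk]
  · intro i hi
    funext v
    rw [List.drop_append_of_le_length (by omega), List.drop_append_of_le_length (by omega),
      act_append, act_append, h.dr i hi]
  · rw [List.length_append, List.length_append, Nat.cast_add, Nat.cast_add, h.ln]
  · rw [key g (by omega), key g' (by omega), h.la]

theorem Far.mark {g g' : List α} (h : D.Far g g') {i : ℕ} (hi : i ≤ D.Θ) :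
    D.P g i ↔ D.P g' i := by
  unfold P
  rw [← mk_take hi h.l1, ← mk_take hi h.l2, h.tk]

theorem Far.endg {g g' : List α} (h : D.Far g g') (he : endg D.N D.Um D.θ g) :
    endg D.N D.Um D.θ g' := by
  have l2 := h.l2
  obtain ⟨_, _, _, h3⟩ := he
  rw [List.take_length, h.la] at h3
  refine ⟨by unfold Θ at l2; omega, by unfold Θ θ at l2; omega, le_rfl, ?_⟩
  rw [List.take_length]
  exact h3

theorem Far.acc {g g' : List α} (h : D.Far g g') {y : ℕ} (hy : y ≤ D.Θ) (ha : D.AccAt g y) :
    D.AccAt g' y := by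
  obtain ⟨h1, _, h3⟩ := ha
  have l1 := h.l1
  have l2 := h.l2
  refine ⟨?_, by omega, fun i h4 h5 h6 => h3 i h4 h5 ((h.mark ?_).2 h6)⟩
  · have e : D.clk g' y g'.length = D.clk g y g.length := by
      unfold clk Psi
      rw [back_congr (P' := D.P g) (y' := y) fun j _ _ => (h.mark (by omega)).symm,
        Nat.cast_sub (by omega), Nat.cast_sub (by omega), h.ln]
    rw [e]
    exact h1
  · unfold Θ
    omega

theorem Far.piece {g g' : List α} (hD : D.Ok) (h : D.Far g g') {d c j : ℕ} (hd : d ≤ D.q)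
    (hj : j < D.K) : act D.M (piece D.t D.K c j (g.drop d)) =
      act D.M (piece D.t D.K c j (g'.drop d)) := by
  have hΘ : D.W ≤ D.Θ := by unfold Θ; omega
  unfold W at hΘ
  unfold P329Z.piece
  split_ifs with h1
  · have h2 := hD.tlt h1
    have key : ∀ x : List α, (x.drop d).take (D.t (j + 1) - c) =
        (((x.take D.Θ).drop d)).take (D.t (j + 1) - c) := by
      intro x
      rw [List.drop_take, List.take_take, min_eq_left (by omega)]
    rw [key g, key g', h.tk]
  · have h2 := hD.tlt hj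
    rw [List.drop_drop, List.drop_drop]
    exact h.dr _ (by omega)

theorem Far.dat {g g' : List α} (hD : D.Ok) (h : D.Far g g') :
    dat D.M D.t D.K g = dat D.M D.t D.K g' := by
  funext j
  exact h.piece hD (d := 0) (Nat.zero_le _) j.2

theorem Far.demand {g g' : List α} (hD : D.Ok) (h : D.Far g g') {y o : V}
    (hd : D.Demand g y o) : D.Demand g' y o := by
  obtain ⟨r, r', h1, h2, h3, h4⟩ := hd
  have hp := hD.plt r
  refine ⟨r, r', h.acc ?_ h1, ?_, ?_, h4⟩
  · unfold Θ W
    omega
  · intro j hj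
    rw [← h.dat hD]
    exact h2 j hj
  · intro j hj
    rw [← h.piece hD hp.le j.2]
    exact h3 j hj

theorem Far.actE {g g' : List α} (hD : D.Ok) (h : D.Far g g') : D.actE g = D.actE g' := by
  have h1 : act D.M g = act D.M g' := h.dr 0 (Nat.zero_le _)
  have hθ : D.θ ≤ D.Θ := by unfold Θ; omega
  have h2 : D.Real g = D.Real g' := propext ⟨h.acc hθ, h.symm.acc hθ⟩
  have h3 : D.Demand g = D.Demand g' := by
    funext y o
    exact propext ⟨h.demand hD, h.symm.demand hD⟩
  funext x
  unfold Dt.actE tau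
  rw [h1, h2, h3, h.dat hD]

theorem phi_fin [Finite α] [Finite V] (hD : D.Ok) : (Set.range D.phi).Finite := by
  haveI : NeZero D.q := ⟨hD.qpos.ne'⟩
  refine (((List.finite_length_le α D.Θ).prod ((Set.finite_univ (α := Fin (D.Θ + 1) → V → V)).prod
    ((Set.finite_univ (α := ZMod D.q)).prod (List.finite_length_le α D.N))))).subset ?_
  rintro _ ⟨g, rfl⟩
  refine ⟨?_, trivial, trivial, ?_⟩
  · show (g.take D.Θ).length ≤ D.Θ
    rw [List.length_take]
    omega
  · show (g.drop (g.length - D.N)).length ≤ D.N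
    rw [List.length_drop]
    omega

theorem phi_actE (hD : D.Ok) {g g' : List α} (h : D.phi g = D.phi g') : D.actE g = D.actE g' := by
  rcases phi_cases h with rfl | h1
  · rfl
  · exact h1.actE hD

theorem phi_act {g g' : List α} (h : D.phi g = D.phi g') : act D.M g = act D.M g' := by
  rcases phi_cases h with rfl | h1
  · rfl
  · exact h1.dr 0 (Nat.zero_le _)

theorem summ [Finite α] [Finite V] (hD : D.Ok) {σ : Type} [Finite σ] (A : (V → V) → σ → σ) :
    Summ (gstep D.N D.Um D.θ (fun G => A (D.actE G))) (gev D.N D.Um D.θ D.Real)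
      (fun s : List α × σ => (D.phi s.1, s.2)) := by
  refine summ_gap D.phi (phi_fin hD) ?_ ?_ ?_ ?_
  · intro g g' a h
    rcases phi_cases h with rfl | h1
    · rfl
    · exact (h1.snoc hD a).phi
  · intro g g' h
    rcases phi_cases h with rfl | h1
    · exact id
    · exact h1.endg
  · intro g g' h
    rcases phi_cases h with rfl | h1
    · exact id
    · exact h1.acc (by unfold Θ; omega)
  · intro g g' h
    rw [phi_actE hD h]

end summary

section consistent

theorem AccAt.nxt {G : List α} {y : ℕ} (hG : D.cpl G) (h : D.AccAt G y) :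
    IsNxt (D.P G) y G.length := by
  refine ⟨h.2.1, hG.2.1, fun i h1 h2 => ?_⟩
  by_cases h3 : i < D.θ
  · exact h.2.2 i h1 h3
  · exact hG.2.2 i (by omega) h2

theorem acc_four (hD : D.Ok) {G : List α} (hG : D.cpl G) {y₁ y₂ : ℕ} (h₁ : D.AccAt G y₁)
    (h₂ : D.AccAt G y₂) (l₁ : D.Lc ≤ y₁) (l₂ : D.Lc ≤ y₂) {c : ℤ} (c1 : 16 ≤ |c|)
    (c2 : |c| ≤ D.S) (e : (y₁ : ℤ) - y₂ = c * D.U) : False := by
  wlog hle : y₂ ≤ y₁ generalizing y₁ y₂ c
  · refine this h₂ h₁ l₂ l₁ (c := -c) (by rw [abs_neg]; exact c1) (by rw [abs_neg]; exact c2)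
      (by linarith) (by omega)
  have hU : (y₁ : ℤ) - y₂ ≤ D.S * D.U := by
    rw [e]
    have h1 : (0 : ℤ) ≤ D.U := Nat.cast_nonneg _
    exact mul_le_mul_of_nonneg_right ((le_abs_self c).trans c2) h1
  have hult := hD.split.ult
  have hW : y₁ ≤ y₂ + D.W := by
    unfold W
    have : ((D.S * D.U : ℕ) : ℤ) = D.S * D.U := by push_cast; rfl
    omega
  obtain ⟨e₀, he₀, hs⟩ := Psi_step hD.qpos hD.Wpos (hD.sparse G) l₂ hle hW (h₂.nxt hG) (h₁.nxt hG)
  obtain ⟨ρ₁, ρ₂, η₁, η₂, e₁, a1, a2, a3, a4, a5⟩ := h₁.1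
  obtain ⟨ρ₃, ρ₄, η₃, η₄, e₂, b1, b2, b3, b4, b5⟩ := h₂.1
  unfold clk at a5 b5
  rw [a5, b5] at hs
  refine hD.split.four ρ₁ ρ₂ ρ₃ ρ₄ η₁ η₂ η₃ η₄ a1 b1 a2 a3 b2 b3 c (e₁ - e₂ + e₀) c1 c2 ?_ ?_
  · rw [abs_le] at a4 b4 ⊢
    constructor <;> omega
  · rw [← ZMod.intCast_zmod_eq_zero_iff_dvd, ← e]
    rw [Nat.cast_sub hle] at hs
    push_cast at hs ⊢
    linear_combination -hs

theorem consistent (hD : D.Ok) {G : List α} (hG : D.cpl G) {y o : V} (hd : D.Demand G y o) :
    D.actE G y = o := by
  have hθ : D.Lc + 3 * D.q ≤ D.θ := by unfold θ W; omega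
  have hl : ∀ r r' : Rul V D.K, D.Lc ≤ D.θ + D.p r - D.p r' := by
    intro r r'
    have := hD.plt r'
    omega
  have hc : ∀ r r' : Rul V D.K, ((D.θ + D.p r - D.p r' : ℕ) : ℤ) = D.θ + D.p r - D.p r' := by
    intro r r'
    have := hD.plt r'
    omega
  unfold actE tau tau'
  by_cases hR : D.Real G
  · rw [if_pos hR]
    obtain ⟨r, r', h1, h2, h3, h4, rfl, rfl⟩ := hd
    have hr : r = r' := by
      rcases hD.sid r r' r r with h5 | h5 | ⟨c, c1, c2, c3⟩
      · exact h5.1
      · exact h5.2.symm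
      · exfalso
        refine acc_four hD hG h1 hR (hl r r') (by omega) c1 c2 ?_
        rw [hc]
        linarith
    subst hr
    have hp := hD.plt r
    have hGl : D.θ ≤ G.length := hG.1
    have e : dat D.M D.t D.K G = Function.update r.2.1 r.1 (dat D.M D.t D.K G r.1) := by
      funext j
      rcases lt_trichotomy (j : ℕ) r.1 with h5 | h5 | h5
      · rw [Function.update_of_ne (fun h => by rw [h] at h5; exact lt_irrefl _ h5)]
        exact h2 j h5
      · rw [Fin.ext h5, Function.update_self]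
      · rw [Function.update_of_ne (fun h => by rw [h] at h5; exact lt_irrefl _ h5), ← h3 j h5]
        have h6 : (G.take (D.p r)).length = D.p r := by rw [List.length_take]; omega
        show act D.M (piece D.t D.K 0 j G) = _
        conv_lhs => rw [← List.take_append_drop (D.p r) G]
        rw [piece_right (by rw [h6]; exact hD.tr r j h5 j.2), h6]
    rw [← hh_dat D.M hD.Kpos hD.t0 hD.tmono G, e]
    exact h4 _
  · rw [if_neg hR]
    have hex : ∃ x : V × V, D.Demand G x.1 x.2 := ⟨(y, o), hd⟩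
    rw [dif_pos hex]
    obtain ⟨s, s', k1, _, _, _, k5, k6⟩ := hex.choose_spec
    obtain ⟨r, r', h1, _, _, _, h5, h6⟩ := hd
    rcases hD.sid r r' s s' with h7 | h7 | ⟨c, c1, c2, c3⟩
    · exfalso
      apply hR
      rw [h7.1, Nat.add_sub_cancel] at h1
      exact h1
    · rw [k5, k6, h5, h6, h7.1, h7.2]
      abel
    · exfalso
      refine acc_four hD hG h1 k1 (hl r r') (hl s s') c1 c2 ?_
      rw [hc, hc]
      linarith

end consistent

end Dt

end Vale.Agent.P329Z
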