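import Vale.Agent.P329Z.Outer

set_option linter.all false

/-!
The cuts of the outer machine.
-/

namespace Vale.Agent.P329Z

open Vale.Agent.P329.Clock (Srv)

namespace Dt

variable {α V T : Type} [AddCommGroup V] {D : Dt α V T}

section shift

theorem nxt_shift {u u' v : List α} {y n y' n' : ℕ} (h : IsNxt (D.P (u ++ v)) y n)
    (hl : u'.length + D.N ≤ y') (e1 : y' + u.length = y + u'.length)
    (e2 : n' + u.length = n + u'.length) : IsNxt (D.P (u' ++ v)) y' n' := by
  obtain ⟨h1, h2, h3⟩ := h
  refine ⟨by omega, (mk_shift (by omega) e2).2 h2, fun i h4 h5 h6 => ?_⟩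
  exact h3 (i + u.length - u'.length) (by omega) (by omega)
    ((mk_shift (by omega) (by omega)).1 h6)

theorem clk_shift {u u' v : List α} {y n y' n' : ℕ} (hl : u'.length + D.N + D.Lc ≤ y')
    (e1 : y' + u.length = y + u'.length) (e2 : n' + u.length = n + u'.length) :
    D.clk (u' ++ v) y' n' = D.clk (u ++ v) y n := by
  unfold Lc at hl
  unfold clk Psi
  rw [back_congr (P' := D.P (u ++ v)) (y' := y) fun j _ _ => mk_shift (by omega) (by omega)]
  congr 2
  omega

theorem clk_left {u v : List α} {y n : ℕ} (hl : y ≤ u.length) :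
    D.clk (u ++ v) y n = D.clk u y n := by
  unfold clk Psi
  rw [back_congr (P' := D.P u) (y' := y) fun j _ _ => mk_left (by omega)]

theorem nxt_left {u v : List α} {y n : ℕ} (hl : n ≤ u.length) :
    IsNxt (D.P (u ++ v)) y n ↔ IsNxt (D.P u) y n := by
  unfold IsNxt P
  rw [mk_left hl]
  refine and_congr_right fun _ => and_congr_right fun _ => forall₃_congr fun i _ _ => ?_
  rw [mk_left (by omega)]

end shift

theorem real_far (hD : D.Ok) {G : List α} (hG : D.cpl G) (hR : D.Real G) :
    D.θ + D.S * D.U < G.length ∧ ∀ i, D.θ ≤ i + D.S * D.U → i < G.length → ¬ D.P G i := by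
  obtain ⟨ρ₁, ρ₂, η₁, η₂, e, a1, a2, a3, a4, a5⟩ := hR.1
  have hult := hD.split.ult
  have hcast : ((D.S * D.U : ℕ) : ℤ) = D.S * D.U := by push_cast; rfl
  have hθ : D.Lc + 3 * D.q ≤ D.θ := by unfold θ W; omega
  have hGl : D.θ ≤ G.length := hG.1
  have hW : D.W = 3 * D.q := rfl
  constructor
  · by_contra hlt
    have h1 := Psi_near_next hD.qpos hD.Wpos (hD.sparse G) (y := D.θ) (by unfold Lc at hθ; omega)
      hG (by omega)
    unfold clk at a5
    rw [h1] at a5
    refine hD.split.two ρ₁ ρ₂ η₁ η₂ a1 a2 a3 (-((G.length - D.θ : ℕ) : ℤ)) e ?_ a4 ?_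
    · rw [abs_le]
      constructor <;> omega
    · rw [← ZMod.intCast_zmod_eq_zero_iff_dvd, Int.cast_sub, ← a5, Int.cast_neg, Int.cast_natCast,
        sub_self]
  · intro i h1 h2 h3
    by_cases h4 : D.θ ≤ i
    · exact hG.2.2 i h4 h2 h3
    · have h5 : back (D.W * (D.q + 2)) (D.P G) D.θ ≤ D.θ - i := by
        by_contra h6
        refine back_min (j := D.θ - i) (by omega) (not_le.1 h6) ?_
        have : D.θ - (D.θ - i) = i := by omega
        rw [this]
        exact h3
      have h6 := Psi_near_back (n := G.length) hD.Wpos (h5.trans (by omega))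
      unfold clk at a5
      rw [h6] at a5
      refine hD.split.two ρ₁ ρ₂ η₁ η₂ a1 a2 a3 (back (D.W * (D.q + 2)) (D.P G) D.θ : ℕ) e ?_ a4 ?_
      · rw [abs_le]
        constructor <;> omega
      · rw [← ZMod.intCast_zmod_eq_zero_iff_dvd, Int.cast_sub, ← a5, Int.cast_natCast, sub_self]

variable (D)

/-- the states at the cuts of the outer machine -/
def FE : Set (List α × V) :=
  {s | ∃ r : Rul V D.K, s.1.length = D.p r ∧ D.Left s.1 r ∧ s.2 = r.2.2}

/-- the outer machine -/
noncomputable abbrev stepE : List α × V → α → List α × V := gstep D.N D.Um D.θ D.actE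

abbrev ev (σ : Type) : List α × σ → α → Prop := gev D.N D.Um D.θ D.Real

variable {D}

theorem left_append (hD : D.Ok) {g z : List α} {r : Rul V D.K} (hl : g.length = D.p r) :
    D.Left (g ++ z) r ↔ D.Left g r := by
  unfold Left dat
  refine forall₂_congr fun j hj => ?_
  have := r.1.2
  rw [piece_left (by omega) (by rw [hl]; exact hD.tl r j hj)]

theorem junctionE (hD : D.Ok) {g' z : List α} {r' : Rul V D.K} (hl : g'.length = D.p r')
    (hG : D.cpl (g' ++ z)) (hR : D.Real (g' ++ z)) (ha : r'.2.1 = dat D.M D.t D.K (g' ++ z))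
    (hs : Srv (hh D.K) r'.1 r'.2.1 r'.2.2 D.f) :
    ∀ s ∈ D.FE, run D.stepE s z = ([], D.out r') := by
  rintro ⟨g, x⟩ ⟨r, h1, h2, h3⟩
  dsimp only at h1 h2 h3
  obtain ⟨f1, f2⟩ := real_far hD hG hR
  have p1 := hD.ple r
  have p2 := hD.ple r'
  have hult := hD.split.ult
  have hθ : D.θ = D.N + D.Lc + 3 * D.q := rfl
  rw [List.length_append] at f1 f2
  have hn : IsNxt (D.P (g' ++ z)) (D.θ + D.p r' - D.p r) (g' ++ z).length := by
    refine ⟨by rw [List.length_append]; omega, hG.2.1, fun i h4 h5 => f2 i (by omega) ?_⟩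
    rw [List.length_append] at h5
    exact h5
  have hc : D.cpl (g ++ z) :=
    nxt_shift hn (by omega) (by omega) (by rw [List.length_append, List.length_append]; omega)
  have hz : z ≠ [] := by
    intro h4
    rw [h4, List.length_nil] at f1
    omega
  have hd : D.Demand (g ++ z) r.2.2 (D.out r') := by
    refine ⟨r, r', ⟨?_, by rw [List.length_append]; omega, ?_⟩, (left_append hD h1).2 h2, ?_, hs,
      rfl, rfl⟩
    · rw [clk_shift (u := g') (y := D.θ) (n := (g' ++ z).length) (by omega) (by omega)
        (by rw [List.length_append, List.length_append]; omega)]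
      exact hR.1
    · intro i h4 h5 h6
      exact f2 (i + g'.length - g.length) (by omega) (by omega)
        ((mk_shift (by omega) (by omega)).1 h6)
    · intro j hj
      rw [← h1, List.drop_left, ha, ← hl, ← piece_right (by rw [hl]; exact hD.tr r' j hj j.2)]
      rfl
  rw [(run_cpl (R := fun _ => True) x hz hc).1, h3, consistent hD hc hd]

theorem outer_fac (hD : D.Ok) {Z : Set (List α)} (hZ : ∀ g, Pre D.N D.Um D.θ g → g ∈ Z)
    (Gs : List (List α)) (hGs : ∀ G ∈ Gs, D.cpl G) {g : List α} (hg : D.inc g) (x : V) :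
    NoEv D.stepE (D.ev V) ([], x) (Gs.flatten ++ g) ∨ ∃ p v, Gs.flatten ++ g = p ++ v ∧
      NoEv D.stepE (D.ev V) ([], x) p ∧ run D.stepE ([], x) p ∈ D.FE ∧
      OChain D.stepE (D.ev V) D.FE {s | s.1 = []} Z v := by
  induction Gs generalizing x with
  | nil =>
    left
    exact (run_inc (g := []) x hg).2
  | cons G Gs ih =>
    have hG := hGs G List.mem_cons_self
    have ih' := ih (fun G' h => hGs G' (List.mem_cons_of_mem _ h)) (D.actE G x)
    have h1 := run_gap (A := D.actE) (R := D.Real) hD.θpos x hG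
    rw [List.flatten_cons, List.append_assoc]
    by_cases hR : D.Real G
    · right
      obtain ⟨k, hk⟩ := hD.srv (dat D.M D.t D.K G) x
      set r : Rul V D.K := (k, dat D.M D.t D.K G, x) with hr
      have hp := hD.plt r
      have hθ : D.θ = D.N + D.Lc + 3 * D.q := rfl
      have hGl : D.θ ≤ G.length := hG.1
      have hl : (G.take (D.p r)).length = D.p r := by rw [List.length_take]; omega
      have e : G.take (D.p r) ++ G.drop (D.p r) = G := List.take_append_drop _ _
      have hinc : D.inc ([] ++ G.take (D.p r)) := inc_short (by rw [List.nil_append]; omega)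
      have h2 := run_inc (A := D.actE) (R := D.Real) x hinc
      have hJ := junctionE hD hl (z := G.drop (D.p r)) (by rw [e]; exact hG) (by rw [e]; exact hR)
        (by rw [e]) hk
      have ho : D.out r = D.actE G x := by
        unfold actE tau tau'
        rw [if_pos hR, ← hh_dat D.M hD.Kpos hD.t0 hD.tmono G]
        rfl
      rw [ho] at hJ
      have hz : G.drop (D.p r) ∈ Z := hZ _ (Pre.right (u := G.take (D.p r)) (by rw [e]; exact hG.pre))
      refine ⟨G.take (D.p r), G.drop (D.p r) ++ (Gs.flatten ++ g),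
        by rw [← List.append_assoc (G.take _), e], h2.2, ?_, ?_⟩
      · rw [h2.1]
        refine ⟨r, hl, ?_, rfl⟩
        rw [List.nil_append, ← left_append (z := G.drop (D.p r)) hD hl, e]
        exact fun j _ => rfl
      · rcases ih' with h3 | ⟨p, v, h3, h4, h5, h6⟩
        · exact OChain.last _ _ _ hz rfl hJ h3
        · rw [h3, ← List.append_assoc]
          exact OChain.cons _ _ _ _ hz rfl hJ h4 h5 h6
    · rcases ih' with h3 | ⟨p, v, h3, h4, h5, h6⟩
      · left
        rw [noEv_append, h1.1]
        exact ⟨h1.2.2 hR, h3⟩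
      · right
        refine ⟨G ++ p, v, by rw [h3, List.append_assoc], ?_, ?_, h6⟩
        · rw [noEv_append, h1.1]
          exact ⟨h1.2.2 hR, h4⟩
        · rw [run_append, h1.1]
          exact h5

end Dt

end Vale.Agent.P329Z
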